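import Vale.Agent.Lib.P158.Reach

/-!
# Barriers for a strip between two integer graphs
-/

namespace Vale.Agent.Lib.P158

/-- The strip between the integer graphs `lo` and `hi`. -/
def InS (lo hi : ℤ → ℤ) (z : ℤ × ℤ) : Prop := lo z.1 ≤ z.2 ∧ z.2 ≤ hi z.1

/-- A barrier across the strip between `lo` and `hi`, from column `m` to column `m + L`:
the edges inside the strip are slow (except the vertical edges of the two end columns), and
the vertical edges of the end columns and the edges of a staircase just above the strip are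
fast. -/
def TBarrier (t : Edge → ℝ) (a b : ℝ) (lo hi : ℤ → ℤ) (m : ℤ) (L : ℕ) : Prop :=
  (∀ x y : ℤ, m ≤ x → x < m + L → InS lo hi (x, y) → InS lo hi (x + 1, y) →
    b ≤ t ((x, y), false)) ∧
  (∀ x y : ℤ, m < x → x < m + L → InS lo hi (x, y) → InS lo hi (x, y + 1) →
    b ≤ t ((x, y), true)) ∧
  (∀ y : ℤ, lo m ≤ y → y ≤ hi m → t ((m, y), true) ≤ a) ∧
  (∀ y : ℤ, lo (m + L) ≤ y → y ≤ hi (m + L) → t ((m + L, y), true) ≤ a) ∧
  (∀ x : ℤ, m ≤ x → x < m + L → t ((x, max (hi x) (hi (x + 1)) + 1), false) ≤ a) ∧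
  (∀ x : ℤ, m ≤ x → x ≤ m + L → t ((x, hi x + 1), true) ≤ a)

lemma mono_nat (f : ℤ → ℤ) (h : ∀ x, f x ≤ f (x + 1)) (m : ℤ) : ∀ j : ℕ, f m ≤ f (m + j) := by
  intro j
  induction j with
  | zero => simp
  | succ j ih =>
    have h1 := h (m + j)
    have e : m + ((j + 1 : ℕ) : ℤ) = m + j + 1 := by push_cast; ring
    rw [e]
    omega

lemma anti_nat (f : ℤ → ℤ) (h : ∀ x, f (x + 1) ≤ f x) (m : ℤ) : ∀ j : ℕ, f (m + j) ≤ f m := by
  intro j
  induction j with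
  | zero => simp
  | succ j ih =>
    have h1 := h (m + j)
    have e : m + ((j + 1 : ℕ) : ℤ) = m + j + 1 := by push_cast; ring
    rw [e]
    omega

lemma lip_nat (f : ℤ → ℤ) (h : ∀ x, f (x + 1) ≤ f x + 1 ∧ f x ≤ f (x + 1) + 1) (m : ℤ) :
    ∀ j : ℕ, f m - j ≤ f (m + j) ∧ f (m + j) ≤ f m + j := by
  intro j
  induction j with
  | zero => simp
  | succ j ih =>
    have h1 := h (m + j)
    have e : m + ((j + 1 : ℕ) : ℤ) = m + j + 1 := by push_cast; ring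
    rw [e]
    push_cast
    omega

lemma pot_step {t : Edge → ℝ} {a b : ℝ} (hb : 0 ≤ b) {lo hi : ℤ → ℤ} {m : ℤ} {L : ℕ}
    (hB : TBarrier t a b lo hi m L) (V : ℤ → ℤ)
    (hV : ∀ y, V (y + 1) ≤ V y + 1 ∧ V y ≤ V (y + 1) + 1) (u w : ℤ × ℤ) (hadj : Adj u w)
    (hu : InS lo hi u) (hw : InS lo hi w) (hcu : m ≤ u.1 ∧ u.1 ≤ m + L)
    (hcw : m ≤ w.1 ∧ w.1 ≤ m + L) (hvert : u.1 = w.1 → m < u.1 ∧ u.1 < m + L) :
    b * |(((w.1 + V w.2) - (u.1 + V u.2) : ℤ) : ℝ)| ≤ stepWt t u w := by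
  obtain ⟨hslowH, hslowV, -, -, -, -⟩ := hB
  obtain ⟨u1, u2⟩ := u
  obtain ⟨w1, w2⟩ := w
  rw [adj_iff] at hadj
  simp only at hadj hcu hcw hvert ⊢
  have hΔ : -1 ≤ (w1 + V w2) - (u1 + V u2) ∧ (w1 + V w2) - (u1 + V u2) ≤ 1 := by
    rcases hadj with ⟨h1, h2⟩ | ⟨h1, h2⟩ | ⟨h1, h2⟩ | ⟨h1, h2⟩
    · rw [h1, h2]; omega
    · rw [h1, h2]; omega
    · have := hV u2; rw [h1, h2]; omega
    · have := hV w2; rw [h1, h2]; omega
  have hΔ' : |(((w1 + V w2) - (u1 + V u2) : ℤ) : ℝ)| ≤ 1 := by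
    rw [abs_le]
    exact ⟨by exact_mod_cast hΔ.1, by exact_mod_cast hΔ.2⟩
  have hstep : b ≤ stepWt t (u1, u2) (w1, w2) := by
    rcases hadj with ⟨h1, h2⟩ | ⟨h1, h2⟩ | ⟨h1, h2⟩ | ⟨h1, h2⟩
    · subst h1 h2
      rw [stepWt_right]
      exact hslowH _ _ hcu.1 (by omega) hu hw
    · subst h1 h2
      rw [stepWt_left]
      exact hslowH _ _ hcw.1 (by omega) hw hu
    · subst h1 h2
      rw [stepWt_up]
      have h3 := hvert rfl
      exact hslowV _ _ h3.1 h3.2 hu hw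
    · subst h1 h2
      rw [stepWt_down]
      have h3 := hvert rfl
      exact hslowV _ _ h3.1 h3.2 hw hu
  calc b * |(((w1 + V w2) - (u1 + V u2) : ℤ) : ℝ)| ≤ b * 1 :=
        mul_le_mul_of_nonneg_left hΔ' hb
    _ = b := mul_one b
    _ ≤ _ := hstep

lemma pot_seg {t : Edge → ℝ} {a b : ℝ} (hb : 0 ≤ b) {lo hi : ℤ → ℤ} {m : ℤ} {L : ℕ}
    (hB : TBarrier t a b lo hi m L) (V : ℤ → ℤ)
    (hV : ∀ y, V (y + 1) ≤ V y + 1 ∧ V y ≤ V (y + 1) + 1) (v : ℕ → ℤ × ℤ)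
    (hadj : ∀ i, Adj (v i) (v (i + 1))) (hin : ∀ i, InS lo hi (v i)) (i0 j0 : ℕ)
    (hgood : ∀ k, i0 ≤ k → k < j0 → (m ≤ (v k).1 ∧ (v k).1 ≤ m + L) ∧
      (m ≤ (v (k + 1)).1 ∧ (v (k + 1)).1 ≤ m + L) ∧
      ((v k).1 = (v (k + 1)).1 → m < (v k).1 ∧ (v k).1 < m + L)) :
    ∀ j, i0 ≤ j → j ≤ j0 →
      b * |((((v j).1 + V (v j).2) - ((v i0).1 + V (v i0).2) : ℤ) : ℝ)|
        ≤ ∑ k ∈ Finset.Ico i0 j, stepWt t (v k) (v (k + 1)) := by
  intro j hij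
  induction j, hij using Nat.le_induction with
  | base => intro _; simp
  | succ j hij ih =>
    intro hj
    rw [Finset.sum_Ico_succ_top hij]
    obtain ⟨g1, g2, g3⟩ := hgood j hij (by omega)
    have hs := pot_step hb hB V hV (v j) (v (j + 1)) (hadj j) (hin j) (hin (j + 1)) g1 g2 g3
    have ih' := ih (by omega)
    have e : ((((v (j + 1)).1 + V (v (j + 1)).2) - ((v i0).1 + V (v i0).2) : ℤ) : ℝ)
        = ((((v j).1 + V (v j).2) - ((v i0).1 + V (v i0).2) : ℤ) : ℝ)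
          + ((((v (j + 1)).1 + V (v (j + 1)).2) - ((v j).1 + V (v j).2) : ℤ) : ℝ) := by
      push_cast; ring
    rw [e]
    have h3 := abs_add_le ((((v j).1 + V (v j).2) - ((v i0).1 + V (v i0).2) : ℤ) : ℝ)
      ((((v (j + 1)).1 + V (v (j + 1)).2) - ((v j).1 + V (v j).2) : ℤ) : ℝ)
    have h4 := mul_le_mul_of_nonneg_left h3 hb
    rw [mul_add] at h4
    linarith

lemma tdetour {t : Edge → ℝ} (ht : ∀ e, 0 ≤ t e) {a b : ℝ} (ha : 0 ≤ a) {lo hi : ℤ → ℤ}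
    {D : ℕ} {m : ℤ} {L : ℕ} (hD : ∀ x, hi x - lo x ≤ D)
    (hstep : ∀ x, hi (x + 1) ≤ hi x + 1 ∧ hi x ≤ hi (x + 1) + 1)
    (hmono : (∀ x, hi x ≤ hi (x + 1)) ∨ (∀ x, hi (x + 1) ≤ hi x))
    (hB : TBarrier t a b lo hi m L) (y1 y2 : ℤ) (h1 : InS lo hi (m, y1))
    (h2 : InS lo hi (m + L, y2)) :
    passage t (m, y1) (m + L, y2)
      ≤ a * (2 * (D + 1) + L + ((|hi (m + L) - hi m| : ℤ) : ℝ)) := by
  obtain ⟨-, -, fL, fR, fH, fV⟩ := hB
  obtain ⟨h1a, h1b⟩ := h1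
  obtain ⟨h2a, h2b⟩ := h2
  simp only at h1a h1b h2a h2b
  obtain ⟨n1, hn1⟩ : ∃ n1 : ℕ, (n1 : ℤ) = hi m + 1 - y1 :=
    ⟨(hi m + 1 - y1).toNat, Int.toNat_of_nonneg (by omega)⟩
  obtain ⟨n2, hn2⟩ : ∃ n2 : ℕ, (n2 : ℤ) = hi (m + L) + 1 - y2 :=
    ⟨(hi (m + L) + 1 - y2).toNat, Int.toNat_of_nonneg (by omega)⟩
  have r1 : Reach t (m, y1) (m, y1 + n1) (a * n1) :=
    reach_up m y1 n1 (fun j hj1 hj2 => fL j (by omega) (by omega))
  have e1 : y1 + (n1 : ℤ) = hi m + 1 := by omega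
  rw [e1] at r1
  have r3 : Reach t (m + L, y2 + n2) (m + L, y2) (a * n2) :=
    reach_down (m + L) y2 n2 (fun j hj1 hj2 => fR j (by omega) (by omega))
  have e2 : y2 + (n2 : ℤ) = hi (m + L) + 1 := by omega
  rw [e2] at r3
  have r2 : Reach t (m, hi m + 1) (m + L, hi (m + L) + 1)
      (a * (L + ((|hi (m + L) - hi m| : ℤ) : ℝ))) := by
    rcases hmono with hm | hm
    · have h3 := stair_up hm (fun x => (hstep x).1) fH fV L le_rfl
      refine reach_mono h3 (le_of_eq ?_)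
      rw [abs_of_nonneg (by have := mono_nat hi hm m L; omega)]
      push_cast
      ring
    · have h3 := stair_down hm (fun x => (hstep x).2) fH fV L le_rfl
      refine reach_mono h3 (le_of_eq ?_)
      rw [abs_of_nonpos (by have := anti_nat hi hm m L; omega)]
      push_cast
      ring
  have r := reach_trans (reach_trans r1 r2) r3
  refine (passage_le_of_reach ht r).trans ?_
  have hn1' : (n1 : ℝ) ≤ D + 1 := by
    have h4 := hD m
    have h5 : (n1 : ℤ) ≤ D + 1 := by omega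
    exact_mod_cast h5
  have hn2' : (n2 : ℝ) ≤ D + 1 := by
    have h4 := hD (m + L)
    have h5 : (n2 : ℤ) ≤ D + 1 := by omega
    exact_mod_cast h5
  nlinarith [mul_le_mul_of_nonneg_left hn1' ha, mul_le_mul_of_nonneg_left hn2' ha]

lemma visits_right (f : ℕ → ℤ) (hup : ∀ k, f (k + 1) ≤ f k + 1) (m : ℤ) (L : ℕ)
    (hL : 1 ≤ L) (i d : ℕ) (hi : f i ≤ m) (hj : m + L ≤ f (i + d)) :
    ∃ i0 j0, i0 < j0 ∧ f i0 = m ∧ f j0 = m + L ∧
      ∀ k, i0 < k → k < j0 → m < f k ∧ f k < m + L := by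
  classical
  have hex : ∃ k, i ≤ k ∧ m + L ≤ f k := ⟨i + d, by omega, hj⟩
  have hj0s := Nat.find_spec hex
  have hj0m : ∀ k, k < Nat.find hex → ¬ (i ≤ k ∧ m + L ≤ f k) :=
    fun k hk => Nat.find_min hex hk
  generalize Nat.find hex = j0 at hj0s hj0m
  have hij0 : i < j0 := by
    rcases Nat.lt_or_ge i j0 with h | h
    · exact h
    · have h6 : j0 = i := le_antisymm h hj0s.1
      rw [h6] at hj0s
      omega
  have hfj0 : f j0 = m + L := by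
    have h1 := hj0m (j0 - 1) (by omega)
    have h2 : f (j0 - 1) < m + L := by
      by_contra hc
      exact h1 ⟨by omega, by omega⟩
    have h3 := hup (j0 - 1)
    rw [show j0 - 1 + 1 = j0 by omega] at h3
    omega
  have hi0s : f (Nat.findGreatest (fun k => f k ≤ m) (j0 - 1)) ≤ m :=
    Nat.findGreatest_spec (P := fun k => f k ≤ m) (by omega : i ≤ j0 - 1) hi
  have hi0le : Nat.findGreatest (fun k => f k ≤ m) (j0 - 1) ≤ j0 - 1 :=
    Nat.findGreatest_le _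
  have hi0ge : i ≤ Nat.findGreatest (fun k => f k ≤ m) (j0 - 1) :=
    Nat.le_findGreatest (by omega) hi
  have hgreat : ∀ k, Nat.findGreatest (fun k => f k ≤ m) (j0 - 1) < k → k ≤ j0 - 1 →
      ¬ f k ≤ m := fun k hk hk' => Nat.findGreatest_is_greatest hk hk'
  generalize Nat.findGreatest (fun k => f k ≤ m) (j0 - 1) = i0 at hi0s hi0le hi0ge hgreat
  have hint : ∀ k, i0 < k → k < j0 → m < f k ∧ f k < m + L := by
    intro k hk1 hk2
    refine ⟨by have := hgreat k hk1 (by omega); omega, ?_⟩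
    by_contra hc
    exact hj0m k hk2 ⟨by omega, by omega⟩
  have hfi0 : f i0 = m := by
    have h3 := hup i0
    by_cases hc : i0 + 1 = j0
    · rw [hc, hfj0] at h3
      omega
    · have := (hint (i0 + 1) (by omega) (by omega)).1
      omega
  exact ⟨i0, j0, by omega, hfi0, hfj0, hint⟩

lemma visits_left (f : ℕ → ℤ) (hdn : ∀ k, f k ≤ f (k + 1) + 1) (m : ℤ) (L : ℕ)
    (hL : 1 ≤ L) (i d : ℕ) (hi : m + L ≤ f i) (hj : f (i + d) ≤ m) :
    ∃ i0 j0, i0 < j0 ∧ f i0 = m + L ∧ f j0 = m ∧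
      ∀ k, i0 < k → k < j0 → m < f k ∧ f k < m + L := by
  obtain ⟨i0, j0, hlt, h1, h2, h3⟩ := visits_right (fun k => - f k)
    (fun k => by have := hdn k; omega) (-(m + L)) L hL i d (by omega) (by omega)
  refine ⟨i0, j0, hlt, by omega, by omega, fun k hk1 hk2 => ?_⟩
  have := h3 k hk1 hk2
  omega

lemma V_up_lip (c G y : ℤ) : min (max 0 (y + 1 - c)) G ≤ min (max 0 (y - c)) G + 1 ∧
    min (max 0 (y - c)) G ≤ min (max 0 (y + 1 - c)) G + 1 := by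
  omega

lemma V_dn_lip (c G y : ℤ) : min (max 0 (c - (y + 1))) G ≤ min (max 0 (c - y)) G + 1 ∧
    min (max 0 (c - y)) G ≤ min (max 0 (c - (y + 1))) G + 1 := by
  omega

lemma exists_potential {lo hi : ℤ → ℤ} {D : ℕ} (m : ℤ) (L : ℕ) (hD : ∀ x, hi x - lo x ≤ D)
    (hmono : (∀ x, hi x ≤ hi (x + 1)) ∨ (∀ x, hi (x + 1) ≤ hi x)) :
    ∃ (V : ℤ → ℤ) (G : ℤ), 0 ≤ G ∧ (∀ y, V (y + 1) ≤ V y + 1 ∧ V y ≤ V (y + 1) + 1) ∧
      (∀ y, lo m ≤ y → y ≤ hi m → V y = 0) ∧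
      (∀ y, lo (m + L) ≤ y → y ≤ hi (m + L) → V y = G) ∧
      |hi (m + L) - hi m| ≤ G + D := by
  rcases hmono with hm | hm
  · refine ⟨fun y => min (max 0 (y - hi m)) (max 0 (lo (m + L) - hi m)),
      max 0 (lo (m + L) - hi m), le_max_left _ _, fun y => V_up_lip _ _ y, ?_, ?_, ?_⟩
    · intro y h1 h2
      simp only
      omega
    · intro y h1 h2
      simp only
      omega
    · have h3 := mono_nat hi hm m L
      have h4 := hD (m + L)
      rw [abs_of_nonneg (by omega)]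
      omega
  · refine ⟨fun y => min (max 0 (lo m - y)) (max 0 (lo m - hi (m + L))),
      max 0 (lo m - hi (m + L)), le_max_left _ _, fun y => V_dn_lip _ _ y, ?_, ?_, ?_⟩
    · intro y h1 h2
      simp only
      omega
    · intro y h1 h2
      simp only
      omega
    · have h3 := anti_nat hi hm m L
      have h4 := hD m
      rw [abs_of_nonpos (by omega)]
      omega

lemma tilt_cross {t : Edge → ℝ} (ht : ∀ e, 0 ≤ t e) {a b : ℝ} (ha : 0 ≤ a) (hab : a ≤ b)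
    {lo hi : ℤ → ℤ} {D : ℕ} {m : ℤ} {L : ℕ} (hL : 1 ≤ L) (hD : ∀ x, hi x - lo x ≤ D)
    (hstep : ∀ x, hi (x + 1) ≤ hi x + 1 ∧ hi x ≤ hi (x + 1) + 1)
    (hmono : (∀ x, hi x ≤ hi (x + 1)) ∨ (∀ x, hi (x + 1) ≤ hi x))
    (hbig : a * (3 * D + 2 + L) < b * L) (hB : TBarrier t a b lo hi m L)
    (v : ℕ → ℤ × ℤ) (hv : IsRay t v) (hin : ∀ i, InS lo hi (v i)) (i0 j0 : ℕ)
    (hlt : i0 < j0)
    (hends : ((v i0).1 = m ∧ (v j0).1 = m + L) ∨ ((v i0).1 = m + L ∧ (v j0).1 = m))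
    (hint : ∀ k, i0 < k → k < j0 → m < (v k).1 ∧ (v k).1 < m + L) : False := by
  obtain ⟨-, hadj, hgeo⟩ := hv
  have hb : 0 ≤ b := ha.trans hab
  obtain ⟨V, G, hG0, hV, hV0, hV1, hGD⟩ := exists_potential (lo := lo) (hi := hi) m L hD hmono
  have hgood : ∀ k, i0 ≤ k → k < j0 → (m ≤ (v k).1 ∧ (v k).1 ≤ m + L) ∧
      (m ≤ (v (k + 1)).1 ∧ (v (k + 1)).1 ≤ m + L) ∧
      ((v k).1 = (v (k + 1)).1 → m < (v k).1 ∧ (v k).1 < m + L) := by
    intro k hk1 hk2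
    have hA : (m ≤ (v k).1 ∧ (v k).1 ≤ m + L) ∧ (k ≠ i0 → m < (v k).1 ∧ (v k).1 < m + L) := by
      by_cases hk0 : k = i0
      · subst hk0
        refine ⟨?_, fun h => absurd rfl h⟩
        rcases hends with ⟨h1, -⟩ | ⟨h1, -⟩ <;> omega
      · have := hint k (by omega) hk2
        exact ⟨⟨by omega, by omega⟩, fun _ => this⟩
    have hB' : (m ≤ (v (k + 1)).1 ∧ (v (k + 1)).1 ≤ m + L) ∧
        (k + 1 ≠ j0 → m < (v (k + 1)).1 ∧ (v (k + 1)).1 < m + L) := by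
      by_cases hk0 : k + 1 = j0
      · rw [hk0]
        refine ⟨?_, fun h => absurd rfl h⟩
        rcases hends with ⟨-, h1⟩ | ⟨-, h1⟩ <;> omega
      · have := hint (k + 1) (by omega) (by omega)
        exact ⟨⟨by omega, by omega⟩, fun _ => this⟩
    refine ⟨hA.1, hB'.1, fun heq => ?_⟩
    by_cases hk0 : k = i0
    · by_cases hk1' : k + 1 = j0
      · subst hk0
        rw [hk1'] at heq
        rcases hends with ⟨h1, h2⟩ | ⟨h1, h2⟩ <;> omega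
      · have h5 := hB'.2 hk1'
        subst hk0
        rcases hends with ⟨h1, h2⟩ | ⟨h1, h2⟩ <;> omega
    · exact hA.2 hk0
  have hlow := pot_seg hb hB V hV v hadj hin i0 j0 hgood j0 hlt.le le_rfl
  rw [hgeo i0 j0 hlt] at hlow
  have hi0 := hin i0
  have hj0 := hin j0
  unfold InS at hi0 hj0
  have hGD' : ((|hi (m + L) - hi m| : ℤ) : ℝ) ≤ (G : ℝ) + D := by exact_mod_cast hGD
  have hG0' : (0 : ℝ) ≤ (G : ℝ) := by exact_mod_cast hG0
  have hGab : a * (G : ℝ) ≤ b * (G : ℝ) := mul_le_mul_of_nonneg_right hab hG0'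
  rcases hends with ⟨hx0, hx1⟩ | ⟨hx0, hx1⟩
  · rw [hx0] at hi0
    rw [hx1] at hj0
    have hv0 := hV0 _ hi0.1 hi0.2
    have hv1 := hV1 _ hj0.1 hj0.2
    have e : ((v j0).1 + V (v j0).2) - ((v i0).1 + V (v i0).2) = (L : ℤ) + G := by
      rw [hx0, hx1, hv0, hv1]; ring
    rw [e] at hlow
    have habs : |(((L : ℤ) + G : ℤ) : ℝ)| = (L : ℝ) + G := by
      rw [abs_of_nonneg (by exact_mod_cast (by omega : (0 : ℤ) ≤ (L : ℤ) + G))]
      push_cast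
      ring
    rw [habs] at hlow
    have hup := tdetour ht ha hD hstep hmono hB (v i0).2 (v j0).2 hi0 hj0
    have e0 : v i0 = (m, (v i0).2) := by rw [← hx0]
    have e1 : v j0 = (m + L, (v j0).2) := by rw [← hx1]
    rw [← e0, ← e1] at hup
    nlinarith
  · rw [hx0] at hi0
    rw [hx1] at hj0
    have hv0 := hV1 _ hi0.1 hi0.2
    have hv1 := hV0 _ hj0.1 hj0.2
    have e : ((v j0).1 + V (v j0).2) - ((v i0).1 + V (v i0).2) = -((L : ℤ) + G) := by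
      rw [hx0, hx1, hv0, hv1]; ring
    rw [e] at hlow
    have habs : |((-((L : ℤ) + G) : ℤ) : ℝ)| = (L : ℝ) + G := by
      rw [Int.cast_neg, abs_neg, abs_of_nonneg (by exact_mod_cast (by omega : (0 : ℤ) ≤ (L : ℤ) + G))]
      push_cast
      ring
    rw [habs] at hlow
    have hup := tdetour ht ha hD hstep hmono hB (v j0).2 (v i0).2 hj0 hi0
    have e0 : v i0 = (m + L, (v i0).2) := by rw [← hx0]
    have e1 : v j0 = (m, (v j0).2) := by rw [← hx1]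
    rw [← e0, ← e1, passage_symm] at hup
    nlinarith

lemma texists_far {v : ℕ → ℤ × ℤ} (hinj : Function.Injective v) {lo hi : ℤ → ℤ}
    (hin : ∀ i, InS lo hi (v i)) (X1 X2 : ℤ) : ∃ j, (v j).1 < X1 ∨ X2 < (v j).1 := by
  by_contra hcon
  push Not at hcon
  have hsub : Set.range v ⊆
      (((Finset.Icc X1 X2).biUnion
        (fun x => (Finset.Icc (lo x) (hi x)).image (fun y => (x, y))) : Finset (ℤ × ℤ)) :
        Set (ℤ × ℤ)) := by
    rintro _ ⟨j, rfl⟩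
    have h1 := hcon j
    have h2 := hin j
    unfold InS at h2
    simp only [Finset.coe_biUnion, Finset.coe_Icc, Finset.coe_image, Set.mem_iUnion,
      Set.mem_image, Set.mem_Icc]
    exact ⟨(v j).1, ⟨h1.1, h1.2⟩, (v j).2, h2, rfl⟩
  exact (Set.infinite_range_of_injective hinj) ((Finset.finite_toSet _).subset hsub)

/-- If barriers exist arbitrarily far to the right and to the left, no geodesic ray stays in
the strip between `lo` and `hi`. -/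
theorem no_ray_of_tbarriers {t : Edge → ℝ} (ht : ∀ e, 0 ≤ t e) {a b : ℝ} (ha : 0 ≤ a)
    (hab : a ≤ b) {lo hi : ℤ → ℤ} {D L : ℕ} (hL : 1 ≤ L) (hD : ∀ x, hi x - lo x ≤ D)
    (hstep : ∀ x, hi (x + 1) ≤ hi x + 1 ∧ hi x ≤ hi (x + 1) + 1)
    (hmono : (∀ x, hi x ≤ hi (x + 1)) ∨ (∀ x, hi (x + 1) ≤ hi x))
    (hbig : a * (3 * D + 2 + L) < b * L)
    (hR : ∀ N : ℕ, ∃ m : ℤ, (N : ℤ) ≤ m ∧ TBarrier t a b lo hi m L)
    (hLf : ∀ N : ℕ, ∃ m : ℤ, m + L ≤ -(N : ℤ) ∧ TBarrier t a b lo hi m L)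
    (v : ℕ → ℤ × ℤ) (hv : IsRay t v) (hin : ∀ i, InS lo hi (v i)) : False := by
  obtain ⟨mR, hmR, BR⟩ := hR (v 0).1.natAbs
  obtain ⟨mL, hmL, BL⟩ := hLf (v 0).1.natAbs
  have hA1 : (v 0).1 ≤ ((v 0).1.natAbs : ℤ) := Int.le_natAbs
  have hA2 : -((v 0).1.natAbs : ℤ) ≤ (v 0).1 := by
    have h9 := @Int.le_natAbs (-(v 0).1)
    rw [Int.natAbs_neg] at h9
    omega
  have hup : ∀ k, (v (k + 1)).1 ≤ (v k).1 + 1 := fun k => (adj_col (hv.2.1 k)).1
  have hdn : ∀ k, (v k).1 ≤ (v (k + 1)).1 + 1 := fun k => (adj_col (hv.2.1 k)).2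
  obtain ⟨j, hj⟩ := texists_far hv.1 hin mL (mR + L)
  rcases hj with hj | hj
  · obtain ⟨i0, j0, hlt, h1, h2, h3⟩ := visits_left (fun k => (v k).1) hdn mL L hL 0 j
      (by omega) (by simpa using hj.le)
    exact tilt_cross ht ha hab hL hD hstep hmono hbig BL v hv hin i0 j0 hlt
      (Or.inr ⟨h1, h2⟩) h3
  · obtain ⟨i0, j0, hlt, h1, h2, h3⟩ := visits_right (fun k => (v k).1) hup mR L hL 0 j
      (by omega) (by simpa using hj.le)
    exact tilt_cross ht ha hab hL hD hstep hmono hbig BR v hv hin i0 j0 hlt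
      (Or.inl ⟨h1, h2⟩) h3

end Vale.Agent.Lib.P158
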