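import Mathlib

/-!
# First-passage percolation on the square lattice: definitions (problem P158)
-/

namespace Vale.Agent.Lib.P158

/-- Labels of the unoriented nearest-neighbour edges of the square lattice:
`((x, y), false)` is the horizontal edge joining `(x, y)` and `(x + 1, y)`, and
`((x, y), true)` is the vertical edge joining `(x, y)` and `(x, y + 1)`.
Every edge has exactly one label. -/
abbrev Edge : Type := (ℤ × ℤ) × Bool

/-- Nearest-neighbour adjacency in the square lattice. -/
def Adj (u w : ℤ × ℤ) : Prop := |u.1 - w.1| + |u.2 - w.2| = 1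

/-- The weight of the edge joining the adjacent vertices `u` and `w`
(and `0` if `u` and `w` are not adjacent). -/
def stepWt (t : Edge → ℝ) (u w : ℤ × ℤ) : ℝ :=
  if w = (u.1 + 1, u.2) then t (u, false)
  else if u = (w.1 + 1, w.2) then t (w, false)
  else if w = (u.1, u.2 + 1) then t (u, true)
  else if u = (w.1, w.2 + 1) then t (w, true)
  else 0

/-- The passage time from `x` to `y`: the infimum, over all finite nearest-neighbour paths
`p 0 = x, p 1, ..., p n = y`, of the sum of the weights of the traversed edges. -/
noncomputable def passage (t : Edge → ℝ) (x y : ℤ × ℤ) : ℝ :=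
  sInf {c : ℝ | ∃ (n : ℕ) (p : ℕ → ℤ × ℤ), p 0 = x ∧ p n = y ∧
    (∀ k < n, Adj (p k) (p (k + 1))) ∧
    c = ∑ k ∈ Finset.range n, stepWt t (p k) (p (k + 1))}

/-- A geodesic ray: a one-sided sequence of pairwise distinct vertices, consecutive ones
adjacent, every finite piece of which realises the passage time between its endpoints. -/
def IsRay (t : Edge → ℝ) (v : ℕ → ℤ × ℤ) : Prop :=
  Function.Injective v ∧ (∀ i, Adj (v i) (v (i + 1))) ∧
    ∀ i j, i < j →
      ∑ k ∈ Finset.Ico i j, stepWt t (v k) (v (k + 1)) = passage t (v i) (v j)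

/-- A bigeodesic: a two-sided sequence of pairwise distinct vertices, consecutive ones
adjacent, every finite piece of which realises the passage time between its endpoints. -/
def IsBigeodesic (t : Edge → ℝ) (v : ℤ → ℤ × ℤ) : Prop :=
  Function.Injective v ∧ (∀ i, Adj (v i) (v (i + 1))) ∧
    ∀ i j, i < j →
      ∑ k ∈ Finset.Ico i j, stepWt t (v k) (v (k + 1)) = passage t (v i) (v j)

end Vale.Agent.Lib.P158
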