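import Vale.Agent.Lib.P158.Defs

/-!
# Deterministic core: a barrier stops every geodesic ray confined to a strip
-/

namespace Vale.Agent.Lib.P158

lemma adj_iff (u w : ℤ × ℤ) : Adj u w ↔
    (w.1 = u.1 + 1 ∧ w.2 = u.2) ∨ (u.1 = w.1 + 1 ∧ w.2 = u.2) ∨
    (w.1 = u.1 ∧ w.2 = u.2 + 1) ∨ (w.1 = u.1 ∧ u.2 = w.2 + 1) := by
  unfold Adj
  rcases abs_cases (u.1 - w.1) with ⟨h1, h1'⟩ | ⟨h1, h1'⟩ <;>
  rcases abs_cases (u.2 - w.2) with ⟨h2, h2'⟩ | ⟨h2, h2'⟩ <;>
  rw [h1, h2] <;> constructor <;> intro h <;> omega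

lemma adj_symm {u w : ℤ × ℤ} (h : Adj u w) : Adj w u := by
  unfold Adj at *
  rw [abs_sub_comm w.1, abs_sub_comm w.2]
  exact h

lemma stepWt_right (t : Edge → ℝ) (x y : ℤ) :
    stepWt t (x, y) (x + 1, y) = t ((x, y), false) := by
  simp [stepWt]

lemma stepWt_up (t : Edge → ℝ) (x y : ℤ) :
    stepWt t (x, y) (x, y + 1) = t ((x, y), true) := by
  simp [stepWt]

lemma stepWt_left (t : Edge → ℝ) (x y : ℤ) :
    stepWt t (x + 1, y) (x, y) = t ((x, y), false) := by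
  simp only [stepWt, Prod.mk.injEq, and_true]
  rw [if_neg (by omega), if_pos trivial]

lemma stepWt_down (t : Edge → ℝ) (x y : ℤ) :
    stepWt t (x, y + 1) (x, y) = t ((x, y), true) := by
  simp only [stepWt, Prod.mk.injEq, true_and]
  rw [if_neg (by omega), if_neg (by omega), if_neg (by omega), if_pos trivial]

lemma stepWt_nonneg {t : Edge → ℝ} (ht : ∀ e, 0 ≤ t e) (u w : ℤ × ℤ) : 0 ≤ stepWt t u w := by
  unfold stepWt
  split_ifs
  · exact ht _
  · exact ht _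
  · exact ht _
  · exact ht _
  · exact le_refl _

lemma stepWt_symm (t : Edge → ℝ) (u w : ℤ × ℤ) : stepWt t u w = stepWt t w u := by
  by_cases h : Adj u w
  · obtain ⟨u1, u2⟩ := u
    obtain ⟨w1, w2⟩ := w
    rw [adj_iff] at h
    simp only at h
    rcases h with ⟨h1, h2⟩ | ⟨h1, h2⟩ | ⟨h1, h2⟩ | ⟨h1, h2⟩
    · subst h1 h2; rw [stepWt_right, stepWt_left]
    · subst h1 h2; rw [stepWt_right, stepWt_left]
    · subst h1 h2; rw [stepWt_up, stepWt_down]
    · subst h1 h2; rw [stepWt_up, stepWt_down]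
  · have h' : ¬ Adj w u := fun h' => h (adj_symm h')
    rw [adj_iff] at h h'
    have e1 : stepWt t u w = 0 := by
      unfold stepWt
      rw [if_neg, if_neg, if_neg, if_neg]
      · intro hh; apply h; rw [hh]; simp
      · intro hh; apply h; rw [hh]; simp
      · intro hh; apply h; rw [hh]; simp
      · intro hh; apply h; rw [hh]; simp
    have e2 : stepWt t w u = 0 := by
      unfold stepWt
      rw [if_neg, if_neg, if_neg, if_neg]
      · intro hh; apply h'; rw [hh]; simp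
      · intro hh; apply h'; rw [hh]; simp
      · intro hh; apply h'; rw [hh]; simp
      · intro hh; apply h'; rw [hh]; simp
    rw [e1, e2]


lemma passage_bddBelow {t : Edge → ℝ} (ht : ∀ e, 0 ≤ t e) (x y : ℤ × ℤ) :
    BddBelow {c : ℝ | ∃ (n : ℕ) (p : ℕ → ℤ × ℤ), p 0 = x ∧ p n = y ∧
      (∀ k < n, Adj (p k) (p (k + 1))) ∧
      c = ∑ k ∈ Finset.range n, stepWt t (p k) (p (k + 1))} := by
  refine ⟨0, ?_⟩
  rintro c ⟨n, p, -, -, -, rfl⟩
  exact Finset.sum_nonneg (fun k _ => stepWt_nonneg ht _ _)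

lemma passage_le {t : Edge → ℝ} (ht : ∀ e, 0 ≤ t e) {x y : ℤ × ℤ} (n : ℕ) (p : ℕ → ℤ × ℤ)
    (h0 : p 0 = x) (hn : p n = y) (hadj : ∀ k < n, Adj (p k) (p (k + 1))) :
    passage t x y ≤ ∑ k ∈ Finset.range n, stepWt t (p k) (p (k + 1)) :=
  csInf_le (passage_bddBelow ht x y) ⟨n, p, h0, hn, hadj, rfl⟩

lemma rev_path (t : Edge → ℝ) {x y : ℤ × ℤ} {c : ℝ}
    (h : ∃ (n : ℕ) (p : ℕ → ℤ × ℤ), p 0 = x ∧ p n = y ∧
      (∀ k < n, Adj (p k) (p (k + 1))) ∧
      c = ∑ k ∈ Finset.range n, stepWt t (p k) (p (k + 1))) :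
    ∃ (n : ℕ) (p : ℕ → ℤ × ℤ), p 0 = y ∧ p n = x ∧
      (∀ k < n, Adj (p k) (p (k + 1))) ∧
      c = ∑ k ∈ Finset.range n, stepWt t (p k) (p (k + 1)) := by
  obtain ⟨n, p, h0, hn, hadj, rfl⟩ := h
  refine ⟨n, fun k => p (n - k), by simpa using hn, by simpa using h0, ?_, ?_⟩
  · intro k hk
    have h1 := hadj (n - (k + 1)) (by omega)
    have e : n - (k + 1) + 1 = n - k := by omega
    rw [e] at h1
    exact adj_symm h1
  · rw [← Finset.sum_range_reflect]
    apply Finset.sum_congr rfl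
    intro k hk
    rw [Finset.mem_range] at hk
    have e1 : n - 1 - k + 1 = n - k := by omega
    have e2 : n - 1 - k = n - (k + 1) := by omega
    rw [e1, e2]
    exact stepWt_symm t _ _

lemma passage_symm (t : Edge → ℝ) (x y : ℤ × ℤ) : passage t x y = passage t y x := by
  unfold passage
  congr 1
  ext c
  exact ⟨fun h => rev_path t h, fun h => rev_path t h⟩

/-- The barrier at column `m` of length `L` for the strip of half-width `W`: the horizontal
edges of the strip between the columns `m` and `m + L` are slow (weight at least `b`), and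
the edges of the detour around them through row `W + 1` are fast (weight at most `a`). -/
def Barrier (t : Edge → ℝ) (a b : ℝ) (m : ℤ) (L W : ℕ) : Prop :=
  (∀ x y : ℤ, m ≤ x → x < m + L → -(W : ℤ) ≤ y → y ≤ W → b ≤ t ((x, y), false)) ∧
  (∀ y : ℤ, -(W : ℤ) ≤ y → y ≤ W → t ((m, y), true) ≤ a) ∧
  (∀ y : ℤ, -(W : ℤ) ≤ y → y ≤ W → t ((m + L, y), true) ≤ a) ∧
  (∀ x : ℤ, m ≤ x → x < m + L → t ((x, (W : ℤ) + 1), false) ≤ a)

/-- The detour path from `(m, y1)` up to row `W + 1`, along it to column `m + L` and down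
to `(m + L, y2)`. -/
def detour (m : ℤ) (L W : ℕ) (y1 : ℤ) (k : ℕ) : ℤ × ℤ :=
  if (k : ℤ) ≤ W + 1 - y1 then (m, y1 + k)
  else if (k : ℤ) ≤ W + 1 - y1 + L then (m + (k - (W + 1 - y1)), W + 1)
  else (m + L, W + 1 - (k - (W + 1 - y1) - L))

lemma detour_step {t : Edge → ℝ} {a b : ℝ} {m : ℤ} {L W : ℕ} (hL : 1 ≤ L)
    (hB : Barrier t a b m L W) (y1 y2 : ℤ) (h1 : -(W : ℤ) ≤ y1) (_h1' : y1 ≤ W)
    (h2 : -(W : ℤ) ≤ y2) (k : ℕ) (hk : (k : ℤ) < W + 1 - y1 + L + (W + 1 - y2)) :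
    Adj (detour m L W y1 k) (detour m L W y1 (k + 1)) ∧
      stepWt t (detour m L W y1 k) (detour m L W y1 (k + 1)) ≤ a := by
  obtain ⟨hslow, hleft, hright, htop⟩ := hB
  by_cases c1 : ((k + 1 : ℕ) : ℤ) ≤ W + 1 - y1
  · have e1 : detour m L W y1 k = (m, y1 + k) := by
      unfold detour; rw [if_pos (by push_cast at c1; omega)]
    have e2 : detour m L W y1 (k + 1) = (m, y1 + k + 1) := by
      unfold detour; rw [if_pos c1]; push_cast; congr 1; ring
    rw [e1, e2, stepWt_up]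
    refine ⟨by rw [adj_iff]; simp, hleft _ (by omega) (by push_cast at c1; omega)⟩
  · by_cases c2 : (k : ℤ) ≤ W + 1 - y1
    · have hk' : (k : ℤ) = W + 1 - y1 := by push_cast at c1; omega
      have e1 : detour m L W y1 k = (m, (W : ℤ) + 1) := by
        unfold detour; rw [if_pos c2]; congr 1; omega
      have e2 : detour m L W y1 (k + 1) = (m + 1, (W : ℤ) + 1) := by
        unfold detour
        rw [if_neg c1, if_pos (by push_cast; omega)]
        congr 1; push_cast; omega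
      rw [e1, e2, stepWt_right]
      refine ⟨by rw [adj_iff]; simp, htop _ (le_refl _) (by omega)⟩
    · by_cases c3 : ((k + 1 : ℕ) : ℤ) ≤ W + 1 - y1 + L
      · have e1 : detour m L W y1 k = (m + (k - (W + 1 - y1)), (W : ℤ) + 1) := by
          unfold detour; rw [if_neg c2, if_pos (by push_cast at c3; omega)]
        have e2 : detour m L W y1 (k + 1) = (m + (k - (W + 1 - y1)) + 1, (W : ℤ) + 1) := by
          unfold detour; rw [if_neg c1, if_pos c3]; congr 1; push_cast; ring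
        rw [e1, e2, stepWt_right]
        refine ⟨by rw [adj_iff]; simp, htop _ (by omega) (by push_cast at c3; omega)⟩
      · by_cases c4 : (k : ℤ) ≤ W + 1 - y1 + L
        · have hk' : (k : ℤ) = W + 1 - y1 + L := by push_cast at c3; omega
          have e1 : detour m L W y1 k = (m + L, (W : ℤ) + 1) := by
            unfold detour; rw [if_neg c2, if_pos c4]; congr 1; omega
          have e2 : detour m L W y1 (k + 1) = (m + L, (W : ℤ)) := by
            unfold detour; rw [if_neg c1, if_neg c3]; congr 1; push_cast; omega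
          rw [e1, e2, stepWt_down]
          refine ⟨by rw [adj_iff]; simp, hright _ (by omega) (le_refl _)⟩
        · have e1 : detour m L W y1 k
              = (m + L, (W + 1 - (((k + 1 : ℕ) : ℤ) - (W + 1 - y1) - L)) + 1) := by
            unfold detour; rw [if_neg c2, if_neg c4]; congr 1; push_cast; ring
          have e2 : detour m L W y1 (k + 1)
              = (m + L, W + 1 - (((k + 1 : ℕ) : ℤ) - (W + 1 - y1) - L)) := by
            unfold detour; rw [if_neg c1, if_neg c3]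
          rw [e1, e2, stepWt_down]
          refine ⟨by rw [adj_iff]; simp, hright _ (by push_cast; omega) (by push_cast; omega)⟩

lemma detour_bound {t : Edge → ℝ} (ht : ∀ e, 0 ≤ t e) {a b : ℝ} (ha : 0 ≤ a) {m : ℤ}
    {L W : ℕ} (hL : 1 ≤ L) (hB : Barrier t a b m L W) (y1 y2 : ℤ)
    (h1 : -(W : ℤ) ≤ y1) (h1' : y1 ≤ W) (h2 : -(W : ℤ) ≤ y2) (h2' : y2 ≤ W) :
    passage t (m, y1) (m + L, y2) ≤ a * (4 * W + 2 + L) := by
  obtain ⟨n, hn⟩ : ∃ n : ℕ, (n : ℤ) = W + 1 - y1 + L + (W + 1 - y2) :=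
    ⟨(W + 1 - y1 + L + (W + 1 - y2)).toNat, Int.toNat_of_nonneg (by omega)⟩
  have hstep := fun k (hk : k < n) =>
    detour_step (t := t) hL hB y1 y2 h1 h1' h2 k (by omega)
  have h0 : detour m L W y1 0 = (m, y1) := by
    unfold detour; rw [if_pos (by push_cast; omega)]; simp
  have hend : detour m L W y1 n = (m + L, y2) := by
    unfold detour; rw [if_neg (by omega), if_neg (by omega)]; congr 1; omega
  refine (passage_le ht n (detour m L W y1) h0 hend (fun k hk => (hstep k hk).1)).trans ?_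
  calc ∑ k ∈ Finset.range n, stepWt t (detour m L W y1 k) (detour m L W y1 (k + 1))
      ≤ ∑ _k ∈ Finset.range n, a :=
        Finset.sum_le_sum (fun k hk => (hstep k (Finset.mem_range.mp hk)).2)
    _ = (n : ℝ) * a := by rw [Finset.sum_const, Finset.card_range, nsmul_eq_mul]
    _ ≤ a * (4 * W + 2 + L) := by
        have hn' : (n : ℤ) ≤ 4 * W + 2 + L := by omega
        have hn'' : (n : ℝ) ≤ 4 * W + 2 + L := by exact_mod_cast hn'
        nlinarith


/-- The column `x` clamped to the columns `m, ..., m + L` of a barrier. -/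
def clampCol (m : ℤ) (L : ℕ) (x : ℤ) : ℤ := max m (min x (m + L))

lemma step_lower {t : Edge → ℝ} (ht : ∀ e, 0 ≤ t e) {a b : ℝ} {m : ℤ} {L W : ℕ}
    (hB : Barrier t a b m L W) (u w : ℤ × ℤ) (hadj : Adj u w)
    (hu : |u.2| ≤ W) (hw : |w.2| ≤ W) :
    b * |((clampCol m L w.1 - clampCol m L u.1 : ℤ) : ℝ)| ≤ stepWt t u w := by
  obtain ⟨hslow, -, -, -⟩ := hB
  obtain ⟨u1, u2⟩ := u
  obtain ⟨w1, w2⟩ := w
  rw [abs_le] at hu hw
  rw [adj_iff] at hadj
  simp only at hadj hu hw ⊢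
  rcases hadj with ⟨h1, h2⟩ | ⟨h1, h2⟩ | ⟨h1, h2⟩ | ⟨h1, h2⟩
  · rw [h1, h2, stepWt_right]
    by_cases hin : m ≤ u1 ∧ u1 < m + L
    · have e : clampCol m L (u1 + 1) - clampCol m L u1 = 1 := by unfold clampCol; omega
      rw [e]
      simp only [Int.cast_one, abs_one, mul_one]
      exact hslow u1 u2 hin.1 hin.2 hu.1 hu.2
    · have e : clampCol m L (u1 + 1) - clampCol m L u1 = 0 := by unfold clampCol; omega
      rw [e]
      simp only [Int.cast_zero, abs_zero, mul_zero]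
      exact ht _
  · rw [h1, h2, stepWt_left]
    by_cases hin : m ≤ w1 ∧ w1 < m + L
    · have e : clampCol m L w1 - clampCol m L (w1 + 1) = -1 := by unfold clampCol; omega
      rw [e]
      simp only [Int.cast_neg, Int.cast_one, abs_neg, abs_one, mul_one]
      exact hslow w1 u2 hin.1 hin.2 hu.1 hu.2
    · have e : clampCol m L w1 - clampCol m L (w1 + 1) = 0 := by unfold clampCol; omega
      rw [e]
      simp only [Int.cast_zero, abs_zero, mul_zero]
      exact ht _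
  · rw [h1, sub_self]
    simp only [Int.cast_zero, abs_zero, mul_zero]
    exact stepWt_nonneg ht _ _
  · rw [h1, sub_self]
    simp only [Int.cast_zero, abs_zero, mul_zero]
    exact stepWt_nonneg ht _ _

lemma seg_lower {t : Edge → ℝ} (ht : ∀ e, 0 ≤ t e) {a b : ℝ} (hb : 0 ≤ b) {m : ℤ}
    {L W : ℕ} (hB : Barrier t a b m L W) (v : ℕ → ℤ × ℤ) (hv : ∀ i, Adj (v i) (v (i + 1)))
    (hstrip : ∀ i, |(v i).2| ≤ W) (i : ℕ) : ∀ j, i ≤ j →
    b * |((clampCol m L (v j).1 - clampCol m L (v i).1 : ℤ) : ℝ)|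
      ≤ ∑ k ∈ Finset.Ico i j, stepWt t (v k) (v (k + 1)) := by
  intro j hij
  induction j, hij using Nat.le_induction with
  | base => simp
  | succ j hij ih =>
    rw [Finset.sum_Ico_succ_top hij]
    have hs := step_lower ht hB (v j) (v (j + 1)) (hv j) (hstrip j) (hstrip (j + 1))
    have e : ((clampCol m L (v (j + 1)).1 - clampCol m L (v i).1 : ℤ) : ℝ)
        = ((clampCol m L (v j).1 - clampCol m L (v i).1 : ℤ) : ℝ)
          + ((clampCol m L (v (j + 1)).1 - clampCol m L (v j).1 : ℤ) : ℝ) := by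
      push_cast; ring
    rw [e]
    have h3 := abs_add_le ((clampCol m L (v j).1 - clampCol m L (v i).1 : ℤ) : ℝ)
      ((clampCol m L (v (j + 1)).1 - clampCol m L (v j).1 : ℤ) : ℝ)
    have h4 := mul_le_mul_of_nonneg_left h3 hb
    rw [mul_add] at h4
    linarith

lemma ivt_up (f : ℕ → ℤ) (hf : ∀ k, f (k + 1) ≤ f k + 1) (c : ℤ) (i : ℕ) :
    ∀ d, f i ≤ c → c ≤ f (i + d) → ∃ k, i ≤ k ∧ k ≤ i + d ∧ f k = c := by
  intro d
  induction d with
  | zero => intro h1 h2; exact ⟨i, le_refl _, le_refl _, le_antisymm h1 h2⟩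
  | succ d ih =>
    intro h1 h2
    by_cases h : c ≤ f (i + d)
    · obtain ⟨k, hk1, hk2, hk3⟩ := ih h1 h
      exact ⟨k, hk1, by omega, hk3⟩
    · refine ⟨i + (d + 1), by omega, le_refl _, ?_⟩
      have h5 := hf (i + d)
      have e : i + d + 1 = i + (d + 1) := by ring
      rw [e] at h5
      omega

lemma ivt_down (f : ℕ → ℤ) (hf : ∀ k, f k ≤ f (k + 1) + 1) (c : ℤ) (i : ℕ) :
    ∀ d, c ≤ f i → f (i + d) ≤ c → ∃ k, i ≤ k ∧ k ≤ i + d ∧ f k = c := by
  intro d h1 h2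
  obtain ⟨k, hk1, hk2, hk3⟩ := ivt_up (fun k => - f k)
    (fun k => by have := hf k; omega) (-c) i d (by omega)
    (by omega)
  exact ⟨k, hk1, hk2, by omega⟩

lemma adj_col {u w : ℤ × ℤ} (h : Adj u w) : w.1 ≤ u.1 + 1 ∧ u.1 ≤ w.1 + 1 := by
  rw [adj_iff] at h; omega

lemma no_cross_right {t : Edge → ℝ} (ht : ∀ e, 0 ≤ t e) {a b : ℝ} (ha : 0 ≤ a)
    (hb : 0 ≤ b) {m : ℤ} {L W : ℕ} (hL : 1 ≤ L) (hbig : a * (4 * W + 2 + L) < b * L)
    (hB : Barrier t a b m L W) (v : ℕ → ℤ × ℤ) (hv : IsRay t v)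
    (hstrip : ∀ i, |(v i).2| ≤ W) (i d : ℕ) (hi : (v i).1 ≤ m)
    (hj : m + L ≤ (v (i + d)).1) : False := by
  obtain ⟨-, hadj, hgeo⟩ := hv
  have hup : ∀ k, (v (k + 1)).1 ≤ (v k).1 + 1 := fun k => (adj_col (hadj k)).1
  obtain ⟨i0, hi0, hi0', hx0⟩ := ivt_up (fun k => (v k).1) hup m i d hi (by omega)
  obtain ⟨d', hd'⟩ : ∃ d', i + d = i0 + d' := ⟨i + d - i0, by omega⟩
  rw [hd'] at hj
  obtain ⟨j0, hj0, hj0', hx1⟩ := ivt_up (fun k => (v k).1) hup (m + L) i0 d'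
    (by omega) hj
  have hlt : i0 < j0 := by
    rcases Nat.lt_or_ge i0 j0 with h | h
    · exact h
    · have h6 : j0 = i0 := by omega
      rw [h6] at hx1; omega
  have hsum := hgeo i0 j0 hlt
  have hlow := seg_lower ht hb hB v hadj hstrip i0 j0 hlt.le
  have e : clampCol m L (v j0).1 - clampCol m L (v i0).1 = (L : ℤ) := by
    rw [hx0, hx1]; unfold clampCol; omega
  rw [e, Int.cast_natCast, Nat.abs_cast] at hlow
  have hy0 := abs_le.mp (hstrip i0)
  have hy1 := abs_le.mp (hstrip j0)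
  have hup' := detour_bound ht ha hL hB (v i0).2 (v j0).2 hy0.1 hy0.2 hy1.1 hy1.2
  have e0 : v i0 = (m, (v i0).2) := by rw [← hx0]
  have e1 : v j0 = (m + L, (v j0).2) := by rw [← hx1]
  rw [← e0, ← e1, ← hsum] at hup'
  linarith

lemma no_cross_left {t : Edge → ℝ} (ht : ∀ e, 0 ≤ t e) {a b : ℝ} (ha : 0 ≤ a)
    (hb : 0 ≤ b) {m : ℤ} {L W : ℕ} (hL : 1 ≤ L) (hbig : a * (4 * W + 2 + L) < b * L)
    (hB : Barrier t a b m L W) (v : ℕ → ℤ × ℤ) (hv : IsRay t v)
    (hstrip : ∀ i, |(v i).2| ≤ W) (i d : ℕ) (hi : m + L ≤ (v i).1)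
    (hj : (v (i + d)).1 ≤ m) : False := by
  obtain ⟨-, hadj, hgeo⟩ := hv
  have hdn : ∀ k, (v k).1 ≤ (v (k + 1)).1 + 1 := fun k => (adj_col (hadj k)).2
  obtain ⟨i0, hi0, hi0', hx0⟩ := ivt_down (fun k => (v k).1) hdn (m + L) i d hi
    (by omega)
  obtain ⟨d', hd'⟩ : ∃ d', i + d = i0 + d' := ⟨i + d - i0, by omega⟩
  rw [hd'] at hj
  obtain ⟨j0, hj0, hj0', hx1⟩ := ivt_down (fun k => (v k).1) hdn m i0 d'
    (by omega) hj
  have hlt : i0 < j0 := by
    rcases Nat.lt_or_ge i0 j0 with h | h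
    · exact h
    · have h6 : j0 = i0 := by omega
      rw [h6] at hx1; omega
  have hsum := hgeo i0 j0 hlt
  have hlow := seg_lower ht hb hB v hadj hstrip i0 j0 hlt.le
  have e : clampCol m L (v j0).1 - clampCol m L (v i0).1 = -(L : ℤ) := by
    rw [hx0, hx1]; unfold clampCol; omega
  rw [e, Int.cast_neg, Int.cast_natCast, abs_neg, Nat.abs_cast] at hlow
  have hy0 := abs_le.mp (hstrip i0)
  have hy1 := abs_le.mp (hstrip j0)
  have hup' := detour_bound ht ha hL hB (v j0).2 (v i0).2 hy1.1 hy1.2 hy0.1 hy0.2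
  have e0 : v i0 = (m + L, (v i0).2) := by rw [← hx0]
  have e1 : v j0 = (m, (v j0).2) := by rw [← hx1]
  rw [← e0, ← e1, passage_symm, ← hsum] at hup'
  linarith

lemma exists_far {v : ℕ → ℤ × ℤ} (hinj : Function.Injective v) {W : ℕ}
    (hstrip : ∀ i, |(v i).2| ≤ W) (lo hi : ℤ) : ∃ j, (v j).1 < lo ∨ hi < (v j).1 := by
  by_contra hcon
  push Not at hcon
  have hsub : Set.range v ⊆
      ((Finset.Icc lo hi ×ˢ Finset.Icc (-(W : ℤ)) W : Finset (ℤ × ℤ)) : Set (ℤ × ℤ)) := by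
    rintro _ ⟨j, rfl⟩
    have h1 := hcon j
    have h2 := abs_le.mp (hstrip j)
    simp only [Finset.coe_product, Finset.coe_Icc, Set.mem_prod, Set.mem_Icc]
    exact ⟨⟨h1.1, h1.2⟩, h2⟩
  exact (Set.infinite_range_of_injective hinj) ((Finset.finite_toSet _).subset hsub)

/-- If barriers exist arbitrarily far to the right and to the left, no geodesic ray stays in
the strip. -/
theorem no_ray_of_barriers {t : Edge → ℝ} (ht : ∀ e, 0 ≤ t e) {a b : ℝ} (ha : 0 ≤ a)
    (hb : 0 ≤ b) {L W : ℕ} (hL : 1 ≤ L) (hbig : a * (4 * W + 2 + L) < b * L)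
    (hR : ∀ N : ℕ, ∃ m : ℤ, (N : ℤ) ≤ m ∧ Barrier t a b m L W)
    (hLf : ∀ N : ℕ, ∃ m : ℤ, m + L ≤ -(N : ℤ) ∧ Barrier t a b m L W)
    (v : ℕ → ℤ × ℤ) (hv : IsRay t v) (hstrip : ∀ i, |(v i).2| ≤ W) : False := by
  obtain ⟨mR, hmR, BR⟩ := hR (v 0).1.natAbs
  obtain ⟨mL, hmL, BL⟩ := hLf (v 0).1.natAbs
  have hA1 : (v 0).1 ≤ ((v 0).1.natAbs : ℤ) := Int.le_natAbs
  have hA2 : -((v 0).1.natAbs : ℤ) ≤ (v 0).1 := by
    have h9 := @Int.le_natAbs (-(v 0).1)
    rw [Int.natAbs_neg] at h9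
    omega
  obtain ⟨j, hj⟩ := exists_far hv.1 hstrip mL (mR + L)
  rcases hj with hj | hj
  · exact no_cross_left ht ha hb hL hbig BL v hv hstrip 0 j (by omega)
      (by simpa using hj.le)
  · exact no_cross_right ht ha hb hL hbig BR v hv hstrip 0 j (by omega)
      (by simpa using hj.le)

lemma sum_Ico_cast (f : ℤ → ℝ) (i : ℕ) : ∀ j, i ≤ j →
    ∑ k ∈ Finset.Ico (i : ℤ) (j : ℤ), f k = ∑ k ∈ Finset.Ico i j, f (k : ℤ) := by
  intro j hij
  induction j, hij using Nat.le_induction with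
  | base => simp
  | succ j hij ih =>
    rw [Finset.sum_Ico_succ_top hij, ← ih]
    have h7 : Finset.Ico (i : ℤ) ((j + 1 : ℕ) : ℤ)
        = insert (j : ℤ) (Finset.Ico (i : ℤ) (j : ℤ)) := by
      ext x
      simp only [Finset.mem_Ico, Finset.mem_insert]
      push_cast
      omega
    rw [h7, Finset.sum_insert (by simp)]
    ring

lemma ray_of_bigeodesic {t : Edge → ℝ} {v : ℤ → ℤ × ℤ} (hv : IsBigeodesic t v) :
    IsRay t (fun i : ℕ => v (i : ℤ)) := by
  obtain ⟨hinj, hadj, hgeo⟩ := hv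
  refine ⟨fun i j h => by exact_mod_cast hinj h, fun i => ?_, fun i j hij => ?_⟩
  · have h8 := hadj (i : ℤ)
    simpa using h8
  · have h := hgeo (i : ℤ) (j : ℤ) (by exact_mod_cast hij)
    rw [sum_Ico_cast _ i j hij.le] at h
    simpa using h

end Vale.Agent.Lib.P158
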