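import Vale.Agent.Lib.P158.Tilt

/-!
# Strips of finite width about an arbitrary line
-/

namespace Vale.Agent.Lib.P158

open MeasureTheory ProbabilityTheory

/-- Lower integer graph of the strip `|y - s x| ≤ n`. -/
noncomputable def lineLo (s : ℝ) (n : ℕ) (x : ℤ) : ℤ := ⌈s * x - n⌉

/-- Upper integer graph of the strip `|y - s x| ≤ n`. -/
noncomputable def lineHi (s : ℝ) (n : ℕ) (x : ℤ) : ℤ := ⌊s * x + n⌋

lemma line_hD (s : ℝ) (n : ℕ) (x : ℤ) : lineHi s n x - lineLo s n x ≤ ((2 * n : ℕ) : ℤ) := by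
  unfold lineHi lineLo
  rw [Int.floor_add_natCast, Int.ceil_sub_natCast]
  have h := Int.floor_le_ceil (s * (x : ℝ))
  push_cast
  omega

lemma line_hstep {s : ℝ} (hs : |s| ≤ 1) (n : ℕ) (x : ℤ) :
    lineHi s n (x + 1) ≤ lineHi s n x + 1 ∧ lineHi s n x ≤ lineHi s n (x + 1) + 1 := by
  rw [abs_le] at hs
  unfold lineHi
  constructor
  · rw [← Int.floor_add_one]
    apply Int.floor_le_floor
    push_cast
    nlinarith
  · rw [← Int.floor_add_one]
    apply Int.floor_le_floor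
    push_cast
    nlinarith

lemma line_hmono (s : ℝ) (n : ℕ) :
    (∀ x, lineHi s n x ≤ lineHi s n (x + 1)) ∨ (∀ x, lineHi s n (x + 1) ≤ lineHi s n x) := by
  rcases le_total 0 s with h | h
  · left
    intro x
    unfold lineHi
    apply Int.floor_le_floor
    push_cast
    nlinarith
  · right
    intro x
    unfold lineHi
    apply Int.floor_le_floor
    push_cast
    nlinarith

variable {Ω : Type*} [MeasurableSpace Ω] {P : Measure Ω} [IsProbabilityMeasure P]

/-- Almost surely no geodesic ray stays within bounded distance of the line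
`A x + B y = C`, when `|A| ≤ |B|`. -/
theorem ae_no_ray_line (t : Edge → Ω → ℝ) (hmeas : ∀ e, Measurable (t e))
    (hindep : iIndepFun t P) (G : Measure ℝ) (hlaw : ∀ e, P.map (t e) = G)
    (hsupp : G (Set.Iio 0) = 0) (a b : ℝ) (hab : a < b) (hGa : G (Set.Iic a) ≠ 0)
    (hGb : G (Set.Ici b) ≠ 0) (A B : ℝ) (hB : B ≠ 0) (hAB : |A| ≤ |B|) :
    ∀ᵐ ω ∂P, ∀ v : ℕ → ℤ × ℤ, IsRay (fun e => t e ω) v →
      ¬ ∃ C W : ℝ, ∀ i, |A * ((v i).1 : ℝ) + B * ((v i).2 : ℝ) - C| ≤ W := by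
  have hB' : 0 < |B| := abs_pos.mpr hB
  have hs : |-A / B| ≤ 1 := by
    rw [abs_div, abs_neg]
    exact div_le_one_of_le₀ hAB (abs_nonneg B)
  have h := fun n : ℕ => ae_no_ray_tilt t hmeas hindep G hlaw hsupp a b hab hGa hGb
    (lineLo (-A / B) n) (lineHi (-A / B) n) (2 * n) (line_hD (-A / B) n)
    (line_hstep hs n) (line_hmono (-A / B) n)
  rw [← ae_all_iff] at h
  filter_upwards [h] with ω hω v hv hex
  obtain ⟨C, W, hCW⟩ := hex
  obtain ⟨n, hn⟩ := exists_nat_ge ((W + |C|) / |B|)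
  apply hω n v hv
  intro i
  have h1 := hCW i
  have e : ((v i).2 : ℝ) - -A / B * ((v i).1 : ℝ)
      = (A * ((v i).1 : ℝ) + B * ((v i).2 : ℝ)) / B := by
    field_simp
    ring
  have h2 : |((v i).2 : ℝ) - -A / B * ((v i).1 : ℝ)| ≤ n := by
    rw [e, abs_div]
    have h3 : |A * ((v i).1 : ℝ) + B * ((v i).2 : ℝ)| ≤ W + |C| := by
      have h4 := abs_sub_abs_le_abs_sub (A * ((v i).1 : ℝ) + B * ((v i).2 : ℝ)) C
      linarith
    exact (div_le_div_of_nonneg_right h3 hB'.le).trans hn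
  rw [abs_le] at h2
  unfold InS lineLo lineHi
  exact ⟨Int.ceil_le.mpr (by linarith), Int.le_floor.mpr (by linarith)⟩

end Vale.Agent.Lib.P158
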