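import Vale.Agent.Lib.P158.Det

/-!
# Probabilistic part: barriers occur almost surely, arbitrarily far out
-/

namespace Vale.Agent.Lib.P158

open MeasureTheory ProbabilityTheory

section Abstract

variable {Ω : Type*} [MeasurableSpace Ω] {P : Measure Ω} [IsProbabilityMeasure P] {ι : Type*}

omit [MeasurableSpace Ω] in
lemma block_measurable (t : ι → Ω → ℝ) (I : ι → Set ℝ) (hI : ∀ e, MeasurableSet (I e))
    (S T : Finset ι) (hTS : T ⊆ S) :
    MeasurableSet[MeasurableSpace.comap (fun ω (i : S) => t i ω) inferInstance]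
      (⋂ e ∈ T, (t e) ⁻¹' (I e)) := by
  apply Finset.measurableSet_biInter
  intro e he
  exact ⟨(fun x : S → ℝ => x ⟨e, hTS he⟩) ⁻¹' (I e), measurable_pi_apply _ (hI e), rfl⟩

/-- Among countably many blocks of independent variables, indexed by pairwise disjoint finite
sets, each of which is good with probability at least `p > 0`, almost surely one is good. -/
lemma ae_exists_block (t : ι → Ω → ℝ) (hmeas : ∀ e, Measurable (t e))
    (hindep : iIndepFun t P) (I : ι → Set ℝ) (hI : ∀ e, MeasurableSet (I e))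
    (F : ℕ → Finset ι) (hdisj : ∀ i j, i ≠ j → Disjoint (F i) (F j)) (p : ENNReal)
    (hp : p ≠ 0) (hB : ∀ k, p ≤ P (⋂ e ∈ F k, (t e) ⁻¹' (I e))) :
    ∀ᵐ ω ∂P, ∃ k, ∀ e ∈ F k, t e ω ∈ I e := by
  classical
  have hBmeas : ∀ k, MeasurableSet (⋂ e ∈ F k, (t e) ⁻¹' (I e)) := fun k =>
    Finset.measurableSet_biInter _ (fun e _ => hmeas e (hI e))
  have hA : ∀ n : ℕ,
      P (⋂ k ∈ Finset.range n, (⋂ e ∈ F k, (t e) ⁻¹' (I e))ᶜ) ≤ (1 - p) ^ n := by
    intro n
    induction n with
    | zero => simp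
    | succ n ih =>
      have hST : Disjoint ((Finset.range n).biUnion F) (F n) := by
        rw [Finset.disjoint_biUnion_left]
        intro k hk
        exact hdisj k n (by rw [Finset.mem_range] at hk; omega)
      have hind := hindep.indepFun_finset _ _ hST hmeas
      rw [IndepFun_iff_Indep, Indep_iff] at hind
      have hm1 : MeasurableSet[MeasurableSpace.comap
          (fun ω (i : ((Finset.range n).biUnion F : Finset ι)) => t i ω) inferInstance]
          (⋂ k ∈ Finset.range n, (⋂ e ∈ F k, (t e) ⁻¹' (I e))ᶜ) := by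
        apply Finset.measurableSet_biInter
        intro k hk
        apply MeasurableSet.compl
        exact block_measurable t I hI _ _ (Finset.subset_biUnion_of_mem F hk)
      have hm2 : MeasurableSet[MeasurableSpace.comap
          (fun ω (i : (F n : Finset ι)) => t i ω) inferInstance]
          (⋂ e ∈ F n, (t e) ⁻¹' (I e))ᶜ := by
        apply MeasurableSet.compl
        exact block_measurable t I hI _ _ (Finset.Subset.refl _)
      have hsplit : (⋂ k ∈ Finset.range (n + 1), (⋂ e ∈ F k, (t e) ⁻¹' (I e))ᶜ)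
          = (⋂ k ∈ Finset.range n, (⋂ e ∈ F k, (t e) ⁻¹' (I e))ᶜ)
            ∩ (⋂ e ∈ F n, (t e) ⁻¹' (I e))ᶜ := by
        rw [Finset.range_add_one, Finset.set_biInter_insert, Set.inter_comm]
      rw [hsplit, hind _ _ hm1 hm2, pow_succ]
      refine mul_le_mul' ih ?_
      rw [prob_compl_eq_one_sub (hBmeas n)]
      exact tsub_le_tsub_left (hB n) 1
  have hzero : P (⋂ k, (⋂ e ∈ F k, (t e) ⁻¹' (I e))ᶜ) = 0 := by
    have hlim := ENNReal.tendsto_pow_atTop_nhds_zero_of_lt_one
      (ENNReal.sub_lt_self ENNReal.one_ne_top one_ne_zero hp)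
    refine le_antisymm (ge_of_tendsto' hlim (fun n => ?_)) bot_le
    refine (measure_mono ?_).trans (hA n)
    intro ω hω
    simp only [Set.mem_iInter] at hω ⊢
    intro k _
    exact hω k
  rw [ae_iff]
  refine measure_mono_null ?_ hzero
  intro ω hω
  simp only [Set.mem_ofPred_eq, not_exists] at hω
  simp only [Set.mem_iInter, Set.mem_compl_iff, Set.mem_preimage]
  exact hω

end Abstract

section Concrete

variable {Ω : Type*} [MeasurableSpace Ω] {P : Measure Ω} [IsProbabilityMeasure P]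

/-- All edge labels `((x, y), d)` with `m ≤ x ≤ m + L` and `-W ≤ y ≤ W + 1`. -/
noncomputable def blockEdges (m : ℤ) (L W : ℕ) : Finset Edge :=
  (Finset.Icc m (m + L) ×ˢ Finset.Icc (-(W : ℤ)) ((W : ℤ) + 1)) ×ˢ (Finset.univ : Finset Bool)

/-- The requirement on the weight of an edge of a block: horizontal edges in the rows
`≤ W` are slow, all other edges are fast. -/
def req (a b : ℝ) (W : ℕ) (e : Edge) : Set ℝ :=
  if e.2 = false ∧ e.1.2 ≤ (W : ℤ) then Set.Ici b else Set.Iic a

lemma req_measurable (a b : ℝ) (W : ℕ) (e : Edge) : MeasurableSet (req a b W e) := by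
  unfold req
  split_ifs
  · exact measurableSet_Ici
  · exact measurableSet_Iic

lemma barrier_of_block {t : Edge → ℝ} {a b : ℝ} {m : ℤ} {L W : ℕ}
    (h : ∀ e ∈ blockEdges m L W, t e ∈ req a b W e) : Barrier t a b m L W := by
  refine ⟨fun x y hx1 hx2 hy1 hy2 => ?_, fun y hy1 hy2 => ?_, fun y hy1 hy2 => ?_,
    fun x hx1 hx2 => ?_⟩
  · have h1 := h ((x, y), false) (by
      simp only [blockEdges, Finset.mem_product, Finset.mem_Icc, Finset.mem_univ, and_true]
      omega)
    unfold req at h1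
    rw [if_pos ⟨rfl, hy2⟩] at h1
    exact h1
  · have h1 := h ((m, y), true) (by
      simp only [blockEdges, Finset.mem_product, Finset.mem_Icc, Finset.mem_univ, and_true]
      omega)
    unfold req at h1
    rw [if_neg (by simp)] at h1
    exact h1
  · have h1 := h ((m + L, y), true) (by
      simp only [blockEdges, Finset.mem_product, Finset.mem_Icc, Finset.mem_univ, and_true]
      omega)
    unfold req at h1
    rw [if_neg (by simp)] at h1
    exact h1
  · have h1 := h ((x, (W : ℤ) + 1), false) (by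
      simp only [blockEdges, Finset.mem_product, Finset.mem_Icc, Finset.mem_univ, and_true]
      omega)
    unfold req at h1
    rw [if_neg (by simp)] at h1
    exact h1

lemma blockEdges_card (m : ℤ) (L W : ℕ) :
    (blockEdges m L W).card ≤ (L + 1) * (2 * W + 2) * 2 := by
  unfold blockEdges
  rw [Finset.card_product, Finset.card_product, Int.card_Icc, Int.card_Icc]
  have e1 : (m + L + 1 - m).toNat = L + 1 := by omega
  have e2 : ((W : ℤ) + 1 + 1 - -(W : ℤ)).toNat = 2 * W + 2 := by omega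
  rw [e1, e2]
  simp

lemma blockEdges_disjoint {m m' : ℤ} {L W : ℕ} (h : m + L < m' ∨ m' + L < m) :
    Disjoint (blockEdges m L W) (blockEdges m' L W) := by
  rw [Finset.disjoint_left]
  intro e he he'
  simp only [blockEdges, Finset.mem_product, Finset.mem_Icc, Finset.mem_univ, and_true]
    at he he'
  omega

lemma ae_barrier_seq (t : Edge → Ω → ℝ) (hmeas : ∀ e, Measurable (t e))
    (hindep : iIndepFun t P) (G : Measure ℝ) (hlaw : ∀ e, P.map (t e) = G) (a b : ℝ)
    (hGa : G (Set.Iic a) ≠ 0) (hGb : G (Set.Ici b) ≠ 0) (L W : ℕ) (pos : ℕ → ℤ)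
    (hsep : ∀ i j, i ≠ j → pos i + L < pos j ∨ pos j + L < pos i) :
    ∀ᵐ ω ∂P, ∃ k, Barrier (fun e => t e ω) a b (pos k) L W := by
  have hprob : IsProbabilityMeasure G := by
    rw [← hlaw ((0, 0), false)]
    exact Measure.isProbabilityMeasure_map (hmeas _).aemeasurable
  have hc0 : min (G (Set.Ici b)) (G (Set.Iic a)) ≠ 0 := by
    rcases min_choice (G (Set.Ici b)) (G (Set.Iic a)) with h | h
    · rw [h]; exact hGb
    · rw [h]; exact hGa
  have hc1 : min (G (Set.Ici b)) (G (Set.Iic a)) ≤ 1 := (min_le_left _ _).trans prob_le_one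
  have hfac : ∀ e, min (G (Set.Ici b)) (G (Set.Iic a)) ≤ P ((t e) ⁻¹' (req a b W e)) := by
    intro e
    rw [← Measure.map_apply (hmeas e) (req_measurable a b W e), hlaw e]
    unfold req
    split_ifs
    · exact min_le_left _ _
    · exact min_le_right _ _
  have hblock : ∀ k, min (G (Set.Ici b)) (G (Set.Iic a)) ^ ((L + 1) * (2 * W + 2) * 2)
      ≤ P (⋂ e ∈ blockEdges (pos k) L W, (t e) ⁻¹' (req a b W e)) := by
    intro k
    rw [hindep.meas_biInter (fun e _ => ⟨req a b W e, req_measurable a b W e, rfl⟩)]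
    calc min (G (Set.Ici b)) (G (Set.Iic a)) ^ ((L + 1) * (2 * W + 2) * 2)
        ≤ min (G (Set.Ici b)) (G (Set.Iic a)) ^ (blockEdges (pos k) L W).card :=
          pow_le_pow_of_le_one bot_le hc1 (blockEdges_card _ _ _)
      _ ≤ _ := Finset.pow_card_le_prod _ _ _ (fun e _ => hfac e)
  have h := ae_exists_block t hmeas hindep (req a b W) (req_measurable a b W)
    (fun k => blockEdges (pos k) L W) (fun i j hij => blockEdges_disjoint (hsep i j hij)) _
    (pow_ne_zero _ hc0) hblock
  filter_upwards [h] with ω hω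
  obtain ⟨k, hk⟩ := hω
  exact ⟨k, barrier_of_block hk⟩

lemma sep_aux (L : ℤ) (hL : 0 ≤ L) (i j : ℕ) (h : i < j) :
    (i : ℤ) * (L + 1) + L < (j : ℤ) * (L + 1) := by
  have h' : (i : ℤ) + 1 ≤ j := by exact_mod_cast h
  nlinarith [mul_le_mul_of_nonneg_right h' (by linarith : (0 : ℤ) ≤ L + 1)]

/-- Almost surely no geodesic ray is contained in a horizontal strip of finite width. -/
theorem ae_no_ray (t : Edge → Ω → ℝ) (hmeas : ∀ e, Measurable (t e))
    (hindep : iIndepFun t P) (G : Measure ℝ) (hlaw : ∀ e, P.map (t e) = G)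
    (hsupp : G (Set.Iio 0) = 0) (a b : ℝ) (hab : a < b) (hGa : G (Set.Iic a) ≠ 0)
    (hGb : G (Set.Ici b) ≠ 0) :
    ∀ᵐ ω ∂P, ∀ (W : ℕ) (v : ℕ → ℤ × ℤ), IsRay (fun e => t e ω) v →
      ¬ ∀ i, |(v i).2| ≤ W := by
  have ha0 : 0 ≤ a := by
    by_contra hneg
    push Not at hneg
    exact hGa (measure_mono_null (fun x hx => lt_of_le_of_lt hx hneg) hsupp)
  have hb0 : 0 ≤ b := ha0.trans hab.le
  have hL : ∀ W : ℕ, ∃ L : ℕ, 1 ≤ L ∧ a * (4 * W + 2 + L) < b * L := by
    intro W
    obtain ⟨L, hL⟩ := exists_nat_gt (a * (4 * W + 2) / (b - a))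
    refine ⟨L + 1, by omega, ?_⟩
    have hba : 0 < b - a := sub_pos.mpr hab
    rw [div_lt_iff₀ hba] at hL
    push_cast
    nlinarith
  choose Lf hLf1 hLf2 using hL
  have hnn : ∀ᵐ ω ∂P, ∀ e, 0 ≤ t e ω := by
    rw [ae_all_iff]
    intro e
    rw [ae_iff]
    have h5 : {ω | ¬ 0 ≤ t e ω} = (t e) ⁻¹' (Set.Iio 0) := by
      ext ω; simp
    rw [h5, ← Measure.map_apply (hmeas e) measurableSet_Iio, hlaw e]
    exact hsupp
  have hbar : ∀ᵐ ω ∂P, ∀ (W N : ℕ),
      (∃ m : ℤ, (N : ℤ) ≤ m ∧ Barrier (fun e => t e ω) a b m (Lf W) W) ∧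
      (∃ m : ℤ, m + (Lf W : ℤ) ≤ -(N : ℤ) ∧ Barrier (fun e => t e ω) a b m (Lf W) W) := by
    rw [ae_all_iff]
    intro W
    rw [ae_all_iff]
    intro N
    have hLnn : (0 : ℤ) ≤ (Lf W : ℤ) := Int.natCast_nonneg _
    have h1 := ae_barrier_seq t hmeas hindep G hlaw a b hGa hGb (Lf W) W
      (fun k => (N : ℤ) + (k : ℤ) * ((Lf W : ℤ) + 1)) (by
        intro i j hij
        rcases Nat.lt_or_gt_of_ne hij with h | h
        · left; have := sep_aux (Lf W) hLnn i j h; linarith
        · right; have := sep_aux (Lf W) hLnn j i h; linarith)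
    have h2 := ae_barrier_seq t hmeas hindep G hlaw a b hGa hGb (Lf W) W
      (fun k => -(N : ℤ) - (Lf W : ℤ) - (k : ℤ) * ((Lf W : ℤ) + 1)) (by
        intro i j hij
        rcases Nat.lt_or_gt_of_ne hij with h | h
        · right; have := sep_aux (Lf W) hLnn i j h; linarith
        · left; have := sep_aux (Lf W) hLnn j i h; linarith)
    filter_upwards [h1, h2] with ω hω1 hω2
    obtain ⟨k1, hk1⟩ := hω1
    obtain ⟨k2, hk2⟩ := hω2
    refine ⟨⟨_, ?_, hk1⟩, ⟨_, ?_, hk2⟩⟩
    · have h6 : (0 : ℤ) ≤ (k1 : ℤ) * ((Lf W : ℤ) + 1) := by positivity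
      linarith
    · have h6 : (0 : ℤ) ≤ (k2 : ℤ) * ((Lf W : ℤ) + 1) := by positivity
      linarith
  filter_upwards [hnn, hbar] with ω h1 h2 W v hv hstrip
  exact no_ray_of_barriers h1 ha0 hb0 (hLf1 W) (hLf2 W) (fun N => (h2 W N).1)
    (fun N => (h2 W N).2) v hv hstrip

end Concrete

end Vale.Agent.Lib.P158
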