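import Vale.Agent.Lib.P158.Sym

/-!
# Paths of bounded weight, vertical runs and staircases
-/

namespace Vale.Agent.Lib.P158

/-- `w` can be reached from `u` by a nearest-neighbour path of total weight at most `c`. -/
def Reach (t : Edge → ℝ) (u w : ℤ × ℤ) (c : ℝ) : Prop :=
  ∃ (n : ℕ) (p : ℕ → ℤ × ℤ), p 0 = u ∧ p n = w ∧ (∀ k < n, Adj (p k) (p (k + 1))) ∧
    ∑ k ∈ Finset.range n, stepWt t (p k) (p (k + 1)) ≤ c

lemma reach_refl (t : Edge → ℝ) (u : ℤ × ℤ) : Reach t u u 0 :=
  ⟨0, fun _ => u, rfl, rfl, fun k hk => absurd hk (Nat.not_lt_zero k), by simp⟩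

lemma reach_mono {t : Edge → ℝ} {u w : ℤ × ℤ} {c c' : ℝ} (h : Reach t u w c) (hc : c ≤ c') :
    Reach t u w c' := by
  obtain ⟨n, p, h0, hn, hadj, hs⟩ := h
  exact ⟨n, p, h0, hn, hadj, hs.trans hc⟩

lemma reach_step (t : Edge → ℝ) {u w : ℤ × ℤ} (h : Adj u w) : Reach t u w (stepWt t u w) := by
  refine ⟨1, fun k => if k = 0 then u else w, by simp, by simp, fun k hk => ?_, by simp⟩
  have hk0 : k = 0 := by omega
  subst hk0
  simpa using h

lemma reach_trans {t : Edge → ℝ} {u w z : ℤ × ℤ} {c c' : ℝ} (h1 : Reach t u w c)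
    (h2 : Reach t w z c') : Reach t u z (c + c') := by
  obtain ⟨n, p, h0, hn, hadj, hs⟩ := h1
  obtain ⟨n', p', h0', hn', hadj', hs'⟩ := h2
  have key : ∀ k, (if n + k ≤ n then p (n + k) else p' (n + k - n)) = p' k := by
    intro k
    by_cases hk0 : k = 0
    · subst hk0
      rw [if_pos (by omega)]
      simp [hn, h0']
    · rw [if_neg (by omega), show n + k - n = k by omega]
  refine ⟨n + n', fun k => if k ≤ n then p k else p' (k - n), ?_, ?_, ?_, ?_⟩
  · simp [h0]
  · have h3 := key n'
    simp only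
    rw [h3]
    exact hn'
  · intro k hk
    simp only
    by_cases h1 : k + 1 ≤ n
    · rw [if_pos (by omega), if_pos h1]
      exact hadj k (by omega)
    · obtain ⟨j, rfl⟩ : ∃ j, k = n + j := ⟨k - n, by omega⟩
      have e1 := key j
      have e2 := key (j + 1)
      rw [show n + (j + 1) = n + j + 1 by ring] at e2
      rw [e1, e2]
      exact hadj' j (by omega)
  · rw [Finset.sum_range_add]
    refine add_le_add (le_of_eq_of_le ?_ hs) (le_of_eq_of_le ?_ hs')
    · apply Finset.sum_congr rfl
      intro k hk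
      rw [Finset.mem_range] at hk
      simp only
      rw [if_pos (by omega), if_pos (by omega)]
    · apply Finset.sum_congr rfl
      intro k hk
      simp only
      have e1 := key k
      have e2 := key (k + 1)
      rw [show n + (k + 1) = n + k + 1 by ring] at e2
      rw [e1, e2]

lemma passage_le_of_reach {t : Edge → ℝ} (ht : ∀ e, 0 ≤ t e) {u w : ℤ × ℤ} {c : ℝ}
    (h : Reach t u w c) : passage t u w ≤ c := by
  obtain ⟨n, p, h0, hn, hadj, hs⟩ := h
  exact (passage_le ht n p h0 hn hadj).trans hs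

lemma reach_right {t : Edge → ℝ} {a : ℝ} (x y : ℤ) (h : t ((x, y), false) ≤ a) :
    Reach t (x, y) (x + 1, y) a := by
  have h2 : Reach t (x, y) (x + 1, y) (stepWt t (x, y) (x + 1, y)) :=
    reach_step t (by rw [adj_iff]; simp)
  rw [stepWt_right] at h2
  exact reach_mono h2 h

lemma reach_up1 {t : Edge → ℝ} {a : ℝ} (x y : ℤ) (h : t ((x, y), true) ≤ a) :
    Reach t (x, y) (x, y + 1) a := by
  have h2 : Reach t (x, y) (x, y + 1) (stepWt t (x, y) (x, y + 1)) :=
    reach_step t (by rw [adj_iff]; simp)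
  rw [stepWt_up] at h2
  exact reach_mono h2 h

lemma reach_down1 {t : Edge → ℝ} {a : ℝ} (x y : ℤ) (h : t ((x, y), true) ≤ a) :
    Reach t (x, y + 1) (x, y) a := by
  have h2 : Reach t (x, y + 1) (x, y) (stepWt t (x, y + 1) (x, y)) :=
    reach_step t (by rw [adj_iff]; simp)
  rw [stepWt_down] at h2
  exact reach_mono h2 h

lemma reach_up {t : Edge → ℝ} {a : ℝ} (x y : ℤ) : ∀ n : ℕ,
    (∀ j : ℤ, y ≤ j → j < y + n → t ((x, j), true) ≤ a) →
    Reach t (x, y) (x, y + n) (a * n) := by
  intro n
  induction n with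
  | zero =>
    intro _
    simpa using reach_refl t (x, y)
  | succ n ih =>
    intro h
    have h1 := ih (fun j hj1 hj2 => h j hj1 (by push_cast; omega))
    have h2 := reach_up1 (t := t) (a := a) x (y + n) (h (y + n) (by omega) (by push_cast; omega))
    have h3 := reach_trans h1 h2
    have e1 : y + ((n + 1 : ℕ) : ℤ) = y + n + 1 := by push_cast; ring
    have e2 : a * ((n + 1 : ℕ) : ℝ) = a * n + a := by push_cast; ring
    rw [e1, e2]
    exact h3

lemma reach_down {t : Edge → ℝ} {a : ℝ} (x y : ℤ) : ∀ n : ℕ,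
    (∀ j : ℤ, y ≤ j → j < y + n → t ((x, j), true) ≤ a) →
    Reach t (x, y + n) (x, y) (a * n) := by
  intro n
  induction n with
  | zero =>
    intro _
    simpa using reach_refl t (x, y)
  | succ n ih =>
    intro h
    have h1 := ih (fun j hj1 hj2 => h j hj1 (by push_cast; omega))
    have h2 := reach_down1 (t := t) (a := a) x (y + n)
      (h (y + n) (by omega) (by push_cast; omega))
    have h3 := reach_trans h2 h1
    have e1 : y + ((n + 1 : ℕ) : ℤ) = y + n + 1 := by push_cast; ring
    have e2 : a * ((n + 1 : ℕ) : ℝ) = a + a * n := by push_cast; ring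
    rw [e1, e2]
    exact h3

/-- The staircase just above a rising strip. -/
lemma stair_up {t : Edge → ℝ} {a : ℝ} {hi : ℤ → ℤ} {m : ℤ} {L : ℕ}
    (hmono : ∀ x, hi x ≤ hi (x + 1)) (hstep : ∀ x, hi (x + 1) ≤ hi x + 1)
    (fH : ∀ x : ℤ, m ≤ x → x < m + L → t ((x, max (hi x) (hi (x + 1)) + 1), false) ≤ a)
    (fV : ∀ x : ℤ, m ≤ x → x ≤ m + L → t ((x, hi x + 1), true) ≤ a) :
    ∀ j : ℕ, j ≤ L →
      Reach t (m, hi m + 1) (m + j, hi (m + j) + 1) (a * (j + (hi (m + j) - hi m))) := by
  intro j
  induction j with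
  | zero =>
    intro _
    simpa using reach_refl t (m, hi m + 1)
  | succ j ih =>
    intro hj
    have h1 := ih (by omega)
    have hx1 : m ≤ m + (j : ℤ) := by omega
    have hx2 : m + (j : ℤ) < m + L := by omega
    have e0 : m + ((j + 1 : ℕ) : ℤ) = m + j + 1 := by push_cast; ring
    rw [e0]
    have hm1 := hmono (m + j)
    have hs1 := hstep (m + j)
    have fh := fH (m + j) hx1 hx2
    by_cases hc : hi (m + j + 1) = hi (m + j)
    · rw [hc, max_self] at fh
      have h2 := reach_right (t := t) (a := a) (m + j) (hi (m + j) + 1) fh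
      have h3 := reach_trans h1 h2
      rw [hc]
      refine reach_mono h3 (le_of_eq ?_)
      push_cast
      ring
    · have hc' : hi (m + j + 1) = hi (m + j) + 1 := by omega
      rw [hc', max_eq_right (by omega)] at fh
      have h2 := reach_up1 (t := t) (a := a) (m + j) (hi (m + j) + 1)
        (fV (m + j) hx1 (by omega))
      have h2' := reach_right (t := t) (a := a) (m + j) (hi (m + j) + 1 + 1) fh
      have h3 := reach_trans (reach_trans h1 h2) h2'
      rw [hc']
      refine reach_mono h3 (le_of_eq ?_)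
      push_cast
      ring

/-- The staircase just above a falling strip. -/
lemma stair_down {t : Edge → ℝ} {a : ℝ} {hi : ℤ → ℤ} {m : ℤ} {L : ℕ}
    (hmono : ∀ x, hi (x + 1) ≤ hi x) (hstep : ∀ x, hi x ≤ hi (x + 1) + 1)
    (fH : ∀ x : ℤ, m ≤ x → x < m + L → t ((x, max (hi x) (hi (x + 1)) + 1), false) ≤ a)
    (fV : ∀ x : ℤ, m ≤ x → x ≤ m + L → t ((x, hi x + 1), true) ≤ a) :
    ∀ j : ℕ, j ≤ L →
      Reach t (m, hi m + 1) (m + j, hi (m + j) + 1) (a * (j + (hi m - hi (m + j)))) := by
  intro j
  induction j with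
  | zero =>
    intro _
    simpa using reach_refl t (m, hi m + 1)
  | succ j ih =>
    intro hj
    have h1 := ih (by omega)
    have hx1 : m ≤ m + (j : ℤ) := by omega
    have hx2 : m + (j : ℤ) < m + L := by omega
    have e0 : m + ((j + 1 : ℕ) : ℤ) = m + j + 1 := by push_cast; ring
    rw [e0]
    have hm1 := hmono (m + j)
    have hs1 := hstep (m + j)
    have fh := fH (m + j) hx1 hx2
    rw [max_eq_left hm1] at fh
    have h2 := reach_right (t := t) (a := a) (m + j) (hi (m + j) + 1) fh
    by_cases hc : hi (m + j + 1) = hi (m + j)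
    · have h3 := reach_trans h1 h2
      rw [hc]
      refine reach_mono h3 (le_of_eq ?_)
      push_cast
      ring
    · have hc' : hi (m + j) = hi (m + j + 1) + 1 := by omega
      have h2' := reach_down1 (t := t) (a := a) (m + j + 1) (hi (m + j + 1) + 1)
        (fV (m + j + 1) (by omega) (by omega))
      rw [hc'] at h1 h2
      have h3 := reach_trans (reach_trans h1 h2) h2'
      refine reach_mono h3 (le_of_eq ?_)
      push_cast
      ring

end Vale.Agent.Lib.P158
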