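import Vale.Agent.Lib.P158.Prob

/-!
# Reflection in the diagonal, and laws that are not a point mass
-/

namespace Vale.Agent.Lib.P158

open MeasureTheory ProbabilityTheory

/-- The reflection `(x, y) ↦ (y, x)` acting on edge labels. -/
def swapEdge (e : Edge) : Edge := ((e.1.2, e.1.1), !e.2)

lemma swapEdge_swapEdge (e : Edge) : swapEdge (swapEdge e) = e := by
  obtain ⟨⟨x, y⟩, d⟩ := e
  simp [swapEdge]

lemma swapEdge_injective : Function.Injective swapEdge := by
  intro e e' h
  have h2 := congrArg swapEdge h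
  rwa [swapEdge_swapEdge, swapEdge_swapEdge] at h2

lemma adj_swap {u w : ℤ × ℤ} (h : Adj u w) : Adj u.swap w.swap := by
  unfold Adj at *
  simp only [Prod.fst_swap, Prod.snd_swap]
  rw [add_comm]
  exact h

lemma stepWt_of_not_adj (t : Edge → ℝ) {u w : ℤ × ℤ} (h : ¬ Adj u w) : stepWt t u w = 0 := by
  rw [adj_iff] at h
  unfold stepWt
  rw [if_neg, if_neg, if_neg, if_neg]
  · intro hh; apply h; rw [hh]; simp
  · intro hh; apply h; rw [hh]; simp
  · intro hh; apply h; rw [hh]; simp
  · intro hh; apply h; rw [hh]; simp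

lemma stepWt_swap (t : Edge → ℝ) (u w : ℤ × ℤ) :
    stepWt (fun e => t (swapEdge e)) u.swap w.swap = stepWt t u w := by
  by_cases h : Adj u w
  · obtain ⟨u1, u2⟩ := u
    obtain ⟨w1, w2⟩ := w
    rw [adj_iff] at h
    simp only at h
    simp only [Prod.swap_prod_mk]
    rcases h with ⟨h1, h2⟩ | ⟨h1, h2⟩ | ⟨h1, h2⟩ | ⟨h1, h2⟩
    · rw [h1, h2, stepWt_right, stepWt_up]; rfl
    · rw [h1, h2, stepWt_left, stepWt_down]; rfl
    · rw [h1, h2, stepWt_up, stepWt_right]; rfl
    · rw [h1, h2, stepWt_down, stepWt_left]; rfl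
  · have h' : ¬ Adj u.swap w.swap := by
      intro h'
      have h2 := adj_swap h'
      rw [Prod.swap_swap, Prod.swap_swap] at h2
      exact h h2
    rw [stepWt_of_not_adj _ h, stepWt_of_not_adj _ h']

lemma passage_swap (t : Edge → ℝ) (x y : ℤ × ℤ) :
    passage (fun e => t (swapEdge e)) x.swap y.swap = passage t x y := by
  unfold passage
  congr 1
  ext c
  constructor
  · rintro ⟨n, p, h0, hn, hadj, rfl⟩
    refine ⟨n, fun k => (p k).swap, ?_, ?_, ?_, ?_⟩
    · simp only; rw [h0, Prod.swap_swap]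
    · simp only; rw [hn, Prod.swap_swap]
    · intro k hk; exact adj_swap (hadj k hk)
    · apply Finset.sum_congr rfl
      intro k _
      have h3 := stepWt_swap t (p k).swap (p (k + 1)).swap
      rw [Prod.swap_swap, Prod.swap_swap] at h3
      exact h3
  · rintro ⟨n, p, h0, hn, hadj, rfl⟩
    refine ⟨n, fun k => (p k).swap, ?_, ?_, ?_, ?_⟩
    · simp only; rw [h0]
    · simp only; rw [hn]
    · intro k hk; exact adj_swap (hadj k hk)
    · apply Finset.sum_congr rfl
      intro k _
      exact (stepWt_swap t (p k) (p (k + 1))).symm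

lemma ray_swap {t : Edge → ℝ} {v : ℕ → ℤ × ℤ} (hv : IsRay t v) :
    IsRay (fun e => t (swapEdge e)) (fun i => (v i).swap) := by
  obtain ⟨hinj, hadj, hgeo⟩ := hv
  refine ⟨fun i j h => hinj (Prod.swap_injective h), fun i => adj_swap (hadj i),
    fun i j hij => ?_⟩
  simp only
  rw [passage_swap, ← hgeo i j hij]
  apply Finset.sum_congr rfl
  intro k _
  exact stepWt_swap t (v k) (v (k + 1))

/-- A probability law on the real line that is not a point mass charges two disjoint
half-lines. -/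
lemma exists_lt_of_not_dirac (G : Measure ℝ) [IsProbabilityMeasure G] (h : ∀ c, G {c} ≠ 1) :
    ∃ a b : ℝ, a < b ∧ G (Set.Iic a) ≠ 0 ∧ G (Set.Ici b) ≠ 0 := by
  by_contra hcon
  push Not at hcon
  have hne : ∃ a, G (Set.Iic a) = 0 := by
    by_contra hA
    push Not at hA
    have h1 : ∀ b, G (Set.Ici b) = 0 := fun b => hcon (b - 1) b (by linarith) (hA _)
    have huniv : (Set.univ : Set ℝ) = ⋃ n : ℕ, Set.Ici (-(n : ℝ)) := by
      ext x
      simp only [Set.mem_univ, Set.mem_iUnion, Set.mem_Ici, true_iff]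
      obtain ⟨n, hn⟩ := exists_nat_ge (-x)
      exact ⟨n, by linarith⟩
    have h2 : G Set.univ = 0 := by
      rw [huniv]; exact measure_iUnion_null (fun n => h1 _)
    simp at h2
  have hbdd : BddAbove {a | G (Set.Iic a) = 0} := by
    by_contra hB
    rw [not_bddAbove_iff] at hB
    have h1 : ∀ n : ℕ, G (Set.Iic (n : ℝ)) = 0 := by
      intro n
      obtain ⟨y, hy, hny⟩ := hB n
      exact measure_mono_null (Set.Iic_subset_Iic.mpr hny.le) hy
    have huniv : (Set.univ : Set ℝ) = ⋃ n : ℕ, Set.Iic (n : ℝ) := by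
      ext x
      simp only [Set.mem_univ, Set.mem_iUnion, Set.mem_Iic, true_iff]
      exact exists_nat_ge x
    have h2 : G Set.univ = 0 := by
      rw [huniv]; exact measure_iUnion_null h1
    simp at h2
  have h1 : G (Set.Iio (sSup {a | G (Set.Iic a) = 0})) = 0 := by
    have hsub : Set.Iio (sSup {a | G (Set.Iic a) = 0})
        ⊆ ⋃ n : ℕ, Set.Iic (sSup {a | G (Set.Iic a) = 0} - 1 / ((n : ℝ) + 1)) := by
      intro x hx
      simp only [Set.mem_iUnion, Set.mem_Iic]
      have hx' : x < sSup {a | G (Set.Iic a) = 0} := hx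
      have hd : (0 : ℝ) < sSup {a | G (Set.Iic a) = 0} - x := by linarith
      obtain ⟨n, hn⟩ := exists_nat_one_div_lt hd
      exact ⟨n, by linarith⟩
    refine measure_mono_null hsub (measure_iUnion_null (fun n => ?_))
    have hpos : (0 : ℝ) < 1 / ((n : ℝ) + 1) := by positivity
    obtain ⟨a, ha, han⟩ := exists_lt_of_lt_csSup hne
      (show sSup {a | G (Set.Iic a) = 0} - 1 / ((n : ℝ) + 1) < sSup {a | G (Set.Iic a) = 0}
        by linarith)
    exact measure_mono_null (Set.Iic_subset_Iic.mpr han.le) ha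
  have h2 : G (Set.Ioi (sSup {a | G (Set.Iic a) = 0})) = 0 := by
    have hsub : Set.Ioi (sSup {a | G (Set.Iic a) = 0})
        ⊆ ⋃ n : ℕ, Set.Ici (sSup {a | G (Set.Iic a) = 0} + 1 / ((n : ℝ) + 1)) := by
      intro x hx
      simp only [Set.mem_iUnion, Set.mem_Ici]
      have hx' : sSup {a | G (Set.Iic a) = 0} < x := hx
      have hd : (0 : ℝ) < x - sSup {a | G (Set.Iic a) = 0} := by linarith
      obtain ⟨n, hn⟩ := exists_nat_one_div_lt hd
      exact ⟨n, by linarith⟩
    refine measure_mono_null hsub (measure_iUnion_null (fun n => ?_))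
    have hpos : (0 : ℝ) < 1 / ((n : ℝ) + 1) := by positivity
    apply hcon (sSup {a | G (Set.Iic a) = 0} + 1 / ((n : ℝ) + 1) / 2)
      (sSup {a | G (Set.Iic a) = 0} + 1 / ((n : ℝ) + 1)) (by linarith)
    intro h0
    have h3 := le_csSup hbdd
      (show sSup {a | G (Set.Iic a) = 0} + 1 / ((n : ℝ) + 1) / 2 ∈ {a | G (Set.Iic a) = 0}
        from h0)
    linarith
  apply h (sSup {a | G (Set.Iic a) = 0})
  have hcompl : ({sSup {a | G (Set.Iic a) = 0}} : Set ℝ)ᶜ
      = Set.Iio (sSup {a | G (Set.Iic a) = 0}) ∪ Set.Ioi (sSup {a | G (Set.Iic a) = 0}) := by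
    ext x
    simp only [Set.mem_compl_iff, Set.mem_singleton_iff, Set.mem_union, Set.mem_Iio,
      Set.mem_Ioi]
    exact lt_or_lt_iff_ne.symm
  have h4 : G ({sSup {a | G (Set.Iic a) = 0}} : Set ℝ)ᶜ = 0 := by
    rw [hcompl]; exact measure_union_null h1 h2
  rwa [prob_compl_eq_zero_iff (measurableSet_singleton _)] at h4

end Vale.Agent.Lib.P158
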