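import Vale.Agent.Lib.P158.Cross

/-!
# Barriers across a strip between two integer graphs occur almost surely
-/

namespace Vale.Agent.Lib.P158

open MeasureTheory ProbabilityTheory

/-- All edge labels `((x, y), d)` with `m ≤ x ≤ m + L` and
`hi m - L - D ≤ y ≤ hi m + L + 2`. -/
noncomputable def tblock (hi : ℤ → ℤ) (D : ℕ) (m : ℤ) (L : ℕ) : Finset Edge :=
  (Finset.Icc m (m + L) ×ˢ Finset.Icc (hi m - L - D) (hi m + L + 2)) ×ˢ
    (Finset.univ : Finset Bool)

/-- The edges that a barrier requires to be slow: edges inside the strip, except vertical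
edges in the columns marked by `cut`. -/
def slowCond (lo hi : ℤ → ℤ) (cut : ℤ → Prop) (e : Edge) : Prop :=
  (e.2 = false ∧ InS lo hi e.1 ∧ InS lo hi (e.1.1 + 1, e.1.2)) ∨
  (e.2 = true ∧ InS lo hi e.1 ∧ InS lo hi (e.1.1, e.1.2 + 1) ∧ ¬ cut e.1.1)

/-- The requirement on the weight of an edge: slow if `slowCond`, fast otherwise. -/
def treq (a b : ℝ) (lo hi : ℤ → ℤ) (cut : ℤ → Prop) (e : Edge) : Set ℝ :=
  {r | (slowCond lo hi cut e → b ≤ r) ∧ (¬ slowCond lo hi cut e → r ≤ a)}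

lemma treq_of_slow {a b : ℝ} {lo hi : ℤ → ℤ} {cut : ℤ → Prop} {e : Edge}
    (h : slowCond lo hi cut e) : treq a b lo hi cut e = Set.Ici b := by
  ext r
  simp [treq, h]

lemma treq_of_not_slow {a b : ℝ} {lo hi : ℤ → ℤ} {cut : ℤ → Prop} {e : Edge}
    (h : ¬ slowCond lo hi cut e) : treq a b lo hi cut e = Set.Iic a := by
  ext r
  simp [treq, h]

lemma treq_measurable (a b : ℝ) (lo hi : ℤ → ℤ) (cut : ℤ → Prop) (e : Edge) :
    MeasurableSet (treq a b lo hi cut e) := by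
  by_cases h : slowCond lo hi cut e
  · rw [treq_of_slow h]; exact measurableSet_Ici
  · rw [treq_of_not_slow h]; exact measurableSet_Iic

lemma tbarrier_of_block {t : Edge → ℝ} {a b : ℝ} {lo hi : ℤ → ℤ} {D : ℕ} {cut : ℤ → Prop}
    {m : ℤ} {L : ℕ} (hD : ∀ x, hi x - lo x ≤ D)
    (hstep : ∀ x, hi (x + 1) ≤ hi x + 1 ∧ hi x ≤ hi (x + 1) + 1)
    (hc1 : cut m) (hc2 : cut (m + L)) (hc3 : ∀ x, m < x → x < m + L → ¬ cut x)
    (h : ∀ e ∈ tblock hi D m L, t e ∈ treq a b lo hi cut e) : TBarrier t a b lo hi m L := by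
  have hlip : ∀ x, m ≤ x → x ≤ m + L → hi m - L ≤ hi x ∧ hi x ≤ hi m + L := by
    intro x hx1 hx2
    obtain ⟨j, rfl⟩ : ∃ j : ℕ, x = m + j := ⟨(x - m).toNat, by omega⟩
    have h1 := lip_nat hi hstep m j
    omega
  have hmem : ∀ (x y : ℤ) (d : Bool), m ≤ x → x ≤ m + L → hi m - L - D ≤ y →
      y ≤ hi m + L + 2 → ((x, y), d) ∈ tblock hi D m L := by
    intro x y d h1 h2 h3 h4
    simp only [tblock, Finset.mem_product, Finset.mem_Icc, Finset.mem_univ, and_true]
    exact ⟨⟨h1, h2⟩, h3, h4⟩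
  refine ⟨fun x y hx1 hx2 hs1 hs2 => ?_, fun x y hx1 hx2 hs1 hs2 => ?_,
    fun y hy1 hy2 => ?_, fun y hy1 hy2 => ?_, fun x hx1 hx2 => ?_, fun x hx1 hx2 => ?_⟩
  · have hl := hlip x hx1 (by omega)
    have hd := hD x
    have hs1' := hs1
    unfold InS at hs1'
    simp only at hs1'
    have h1 := h ((x, y), false) (hmem x y false hx1 (by omega) (by omega) (by omega))
    rw [treq_of_slow (Or.inl ⟨rfl, hs1, hs2⟩)] at h1
    exact h1
  · have hl := hlip x (by omega) (by omega)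
    have hd := hD x
    have hs1' := hs1
    unfold InS at hs1'
    simp only at hs1'
    have h1 := h ((x, y), true) (hmem x y true (by omega) (by omega) (by omega) (by omega))
    rw [treq_of_slow (Or.inr ⟨rfl, hs1, hs2, hc3 x hx1 hx2⟩)] at h1
    exact h1
  · have hd := hD m
    have h1 := h ((m, y), true) (hmem m y true le_rfl (by omega) (by omega) (by omega))
    have hns : ¬ slowCond lo hi cut ((m, y), true) := by
      rintro (⟨h2, -⟩ | ⟨-, -, -, h4⟩)
      · exact Bool.noConfusion h2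
      · exact h4 hc1
    rw [treq_of_not_slow hns] at h1
    exact h1
  · have hl := hlip (m + L) (by omega) le_rfl
    have hd := hD (m + L)
    have h1 := h ((m + L, y), true) (hmem (m + L) y true (by omega) le_rfl (by omega) (by omega))
    have hns : ¬ slowCond lo hi cut ((m + L, y), true) := by
      rintro (⟨h2, -⟩ | ⟨-, -, -, h4⟩)
      · exact Bool.noConfusion h2
      · exact h4 hc2
    rw [treq_of_not_slow hns] at h1
    exact h1
  · have hl := hlip x hx1 (by omega)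
    have hl' := hlip (x + 1) (by omega) (by omega)
    have h1 := h ((x, max (hi x) (hi (x + 1)) + 1), false)
      (hmem x _ false hx1 (by omega) (by omega) (by omega))
    have hns : ¬ slowCond lo hi cut ((x, max (hi x) (hi (x + 1)) + 1), false) := by
      rintro (⟨-, h2, -⟩ | ⟨h2, -⟩)
      · unfold InS at h2
        simp only at h2
        omega
      · exact Bool.noConfusion h2
    rw [treq_of_not_slow hns] at h1
    exact h1
  · have hl := hlip x hx1 hx2
    have h1 := h ((x, hi x + 1), true) (hmem x _ true hx1 hx2 (by omega) (by omega))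
    have hns : ¬ slowCond lo hi cut ((x, hi x + 1), true) := by
      rintro (⟨h2, -⟩ | ⟨-, h2, -⟩)
      · exact Bool.noConfusion h2
      · unfold InS at h2
        simp only at h2
        omega
    rw [treq_of_not_slow hns] at h1
    exact h1

lemma tblock_card (hi : ℤ → ℤ) (D : ℕ) (m : ℤ) (L : ℕ) :
    (tblock hi D m L).card ≤ (L + 1) * (2 * L + D + 3) * 2 := by
  unfold tblock
  rw [Finset.card_product, Finset.card_product, Int.card_Icc, Int.card_Icc]
  have e1 : (m + L + 1 - m).toNat = L + 1 := by omega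
  have e2 : (hi m + L + 2 + 1 - (hi m - L - D)).toNat = 2 * L + D + 3 := by omega
  rw [e1, e2]
  simp

lemma tblock_disjoint (hi : ℤ → ℤ) (D : ℕ) {m m' : ℤ} {L : ℕ} (h : m + L < m' ∨ m' + L < m) :
    Disjoint (tblock hi D m L) (tblock hi D m' L) := by
  rw [Finset.disjoint_left]
  intro e he he'
  simp only [tblock, Finset.mem_product, Finset.mem_Icc, Finset.mem_univ, and_true]
    at he he'
  omega

variable {Ω : Type*} [MeasurableSpace Ω] {P : Measure Ω} [IsProbabilityMeasure P]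

lemma ae_tbarrier_seq (t : Edge → Ω → ℝ) (hmeas : ∀ e, Measurable (t e))
    (hindep : iIndepFun t P) (G : Measure ℝ) (hlaw : ∀ e, P.map (t e) = G) (a b : ℝ)
    (hGa : G (Set.Iic a) ≠ 0) (hGb : G (Set.Ici b) ≠ 0) (lo hi : ℤ → ℤ) (D L : ℕ)
    (hD : ∀ x, hi x - lo x ≤ D)
    (hstep : ∀ x, hi (x + 1) ≤ hi x + 1 ∧ hi x ≤ hi (x + 1) + 1) (pos : ℕ → ℤ)
    (hsep : ∀ i j, i ≠ j → pos i + L < pos j ∨ pos j + L < pos i) :
    ∀ᵐ ω ∂P, ∃ k, TBarrier (fun e => t e ω) a b lo hi (pos k) L := by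
  have hprob : IsProbabilityMeasure G := by
    rw [← hlaw ((0, 0), false)]
    exact Measure.isProbabilityMeasure_map (hmeas _).aemeasurable
  have hc0 : min (G (Set.Ici b)) (G (Set.Iic a)) ≠ 0 := by
    rcases min_choice (G (Set.Ici b)) (G (Set.Iic a)) with h | h
    · rw [h]; exact hGb
    · rw [h]; exact hGa
  have hc1 : min (G (Set.Ici b)) (G (Set.Iic a)) ≤ 1 := (min_le_left _ _).trans prob_le_one
  have hfac : ∀ e, min (G (Set.Ici b)) (G (Set.Iic a))
      ≤ P ((t e) ⁻¹' (treq a b lo hi (fun x => ∃ k : ℕ, x = pos k ∨ x = pos k + L) e)) := by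
    intro e
    rw [← Measure.map_apply (hmeas e) (treq_measurable a b lo hi _ e), hlaw e]
    by_cases hsl : slowCond lo hi (fun x => ∃ k : ℕ, x = pos k ∨ x = pos k + L) e
    · rw [treq_of_slow hsl]; exact min_le_left _ _
    · rw [treq_of_not_slow hsl]; exact min_le_right _ _
  have hblock : ∀ k, min (G (Set.Ici b)) (G (Set.Iic a)) ^ ((L + 1) * (2 * L + D + 3) * 2)
      ≤ P (⋂ e ∈ tblock hi D (pos k) L,
        (t e) ⁻¹' (treq a b lo hi (fun x => ∃ k : ℕ, x = pos k ∨ x = pos k + L) e)) := by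
    intro k
    rw [hindep.meas_biInter (fun e _ => ⟨_, treq_measurable a b lo hi _ e, rfl⟩)]
    calc min (G (Set.Ici b)) (G (Set.Iic a)) ^ ((L + 1) * (2 * L + D + 3) * 2)
        ≤ min (G (Set.Ici b)) (G (Set.Iic a)) ^ (tblock hi D (pos k) L).card :=
          pow_le_pow_of_le_one bot_le hc1 (tblock_card _ _ _ _)
      _ ≤ _ := Finset.pow_card_le_prod _ _ _ (fun e _ => hfac e)
  have h := ae_exists_block t hmeas hindep
    (treq a b lo hi (fun x => ∃ k : ℕ, x = pos k ∨ x = pos k + L))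
    (treq_measurable a b lo hi _)
    (fun k => tblock hi D (pos k) L)
    (fun i j hij => tblock_disjoint hi D (hsep i j hij)) _ (pow_ne_zero _ hc0) hblock
  filter_upwards [h] with ω hω
  obtain ⟨k, hk⟩ := hω
  refine ⟨k, tbarrier_of_block hD hstep ⟨k, Or.inl rfl⟩ ⟨k, Or.inr rfl⟩ ?_ hk⟩
  rintro x hx1 hx2 ⟨k', hk'⟩
  by_cases hkk : k = k'
  · subst hkk
    omega
  · have h3 := hsep k k' hkk
    omega

/-- Almost surely no geodesic ray is contained in the strip between `lo` and `hi`. -/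
theorem ae_no_ray_tilt (t : Edge → Ω → ℝ) (hmeas : ∀ e, Measurable (t e))
    (hindep : iIndepFun t P) (G : Measure ℝ) (hlaw : ∀ e, P.map (t e) = G)
    (hsupp : G (Set.Iio 0) = 0) (a b : ℝ) (hab : a < b) (hGa : G (Set.Iic a) ≠ 0)
    (hGb : G (Set.Ici b) ≠ 0) (lo hi : ℤ → ℤ) (D : ℕ) (hD : ∀ x, hi x - lo x ≤ D)
    (hstep : ∀ x, hi (x + 1) ≤ hi x + 1 ∧ hi x ≤ hi (x + 1) + 1)
    (hmono : (∀ x, hi x ≤ hi (x + 1)) ∨ (∀ x, hi (x + 1) ≤ hi x)) :
    ∀ᵐ ω ∂P, ∀ v : ℕ → ℤ × ℤ, IsRay (fun e => t e ω) v → ¬ ∀ i, InS lo hi (v i) := by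
  have ha0 : 0 ≤ a := by
    by_contra hneg
    push Not at hneg
    exact hGa (measure_mono_null (fun x hx => lt_of_le_of_lt hx hneg) hsupp)
  obtain ⟨L, hL1, hL2⟩ : ∃ L : ℕ, 1 ≤ L ∧ a * (3 * D + 2 + L) < b * L := by
    obtain ⟨L, hL⟩ := exists_nat_gt (a * (3 * D + 2) / (b - a))
    refine ⟨L + 1, by omega, ?_⟩
    have hba : 0 < b - a := sub_pos.mpr hab
    rw [div_lt_iff₀ hba] at hL
    push_cast
    nlinarith
  have hnn : ∀ᵐ ω ∂P, ∀ e, 0 ≤ t e ω := by
    rw [ae_all_iff]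
    intro e
    rw [ae_iff]
    have h5 : {ω | ¬ 0 ≤ t e ω} = (t e) ⁻¹' (Set.Iio 0) := by
      ext ω; simp
    rw [h5, ← Measure.map_apply (hmeas e) measurableSet_Iio, hlaw e]
    exact hsupp
  have hbar : ∀ᵐ ω ∂P, ∀ N : ℕ,
      (∃ m : ℤ, (N : ℤ) ≤ m ∧ TBarrier (fun e => t e ω) a b lo hi m L) ∧
      (∃ m : ℤ, m + (L : ℤ) ≤ -(N : ℤ) ∧ TBarrier (fun e => t e ω) a b lo hi m L) := by
    rw [ae_all_iff]
    intro N
    have hLnn : (0 : ℤ) ≤ (L : ℤ) := Int.natCast_nonneg _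
    have h1 := ae_tbarrier_seq t hmeas hindep G hlaw a b hGa hGb lo hi D L hD hstep
      (fun k => (N : ℤ) + (k : ℤ) * ((L : ℤ) + 1)) (by
        intro i j hij
        rcases Nat.lt_or_gt_of_ne hij with h | h
        · left; have := sep_aux L hLnn i j h; linarith
        · right; have := sep_aux L hLnn j i h; linarith)
    have h2 := ae_tbarrier_seq t hmeas hindep G hlaw a b hGa hGb lo hi D L hD hstep
      (fun k => -(N : ℤ) - (L : ℤ) - (k : ℤ) * ((L : ℤ) + 1)) (by
        intro i j hij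
        rcases Nat.lt_or_gt_of_ne hij with h | h
        · right; have := sep_aux L hLnn i j h; linarith
        · left; have := sep_aux L hLnn j i h; linarith)
    filter_upwards [h1, h2] with ω hω1 hω2
    obtain ⟨k1, hk1⟩ := hω1
    obtain ⟨k2, hk2⟩ := hω2
    refine ⟨⟨_, ?_, hk1⟩, ⟨_, ?_, hk2⟩⟩
    · have h6 : (0 : ℤ) ≤ (k1 : ℤ) * ((L : ℤ) + 1) := by positivity
      linarith
    · have h6 : (0 : ℤ) ≤ (k2 : ℤ) * ((L : ℤ) + 1) := by positivity
      linarith
  filter_upwards [hnn, hbar] with ω h1 h2 v hv hstrip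
  exact no_ray_of_tbarriers h1 ha0 hab.le hL1 hD hstep hmono hL2 (fun N => (h2 N).1)
    (fun N => (h2 N).2) v hv hstrip

end Vale.Agent.Lib.P158
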