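import Vale.Agent.Lib.P158.Line

/-!
# Local versions: confinement only along the crossed segment; strips with an offset
-/

namespace Vale.Agent.Lib.P158

lemma pot_seg_loc {t : Edge → ℝ} {a b : ℝ} (hb : 0 ≤ b) {lo hi : ℤ → ℤ} {m : ℤ} {L : ℕ}
    (hB : TBarrier t a b lo hi m L) (V : ℤ → ℤ)
    (hV : ∀ y, V (y + 1) ≤ V y + 1 ∧ V y ≤ V (y + 1) + 1) (v : ℕ → ℤ × ℤ)
    (hadj : ∀ i, Adj (v i) (v (i + 1))) (i0 j0 : ℕ)
    (hin : ∀ i, i0 ≤ i → i ≤ j0 → InS lo hi (v i))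
    (hgood : ∀ k, i0 ≤ k → k < j0 → (m ≤ (v k).1 ∧ (v k).1 ≤ m + L) ∧
      (m ≤ (v (k + 1)).1 ∧ (v (k + 1)).1 ≤ m + L) ∧
      ((v k).1 = (v (k + 1)).1 → m < (v k).1 ∧ (v k).1 < m + L)) :
    ∀ j, i0 ≤ j → j ≤ j0 →
      b * |((((v j).1 + V (v j).2) - ((v i0).1 + V (v i0).2) : ℤ) : ℝ)|
        ≤ ∑ k ∈ Finset.Ico i0 j, stepWt t (v k) (v (k + 1)) := by
  intro j hij
  induction j, hij using Nat.le_induction with
  | base => intro _; simp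
  | succ j hij ih =>
    intro hj
    rw [Finset.sum_Ico_succ_top hij]
    obtain ⟨g1, g2, g3⟩ := hgood j hij (by omega)
    have hs := pot_step hb hB V hV (v j) (v (j + 1)) (hadj j) (hin j hij (by omega))
      (hin (j + 1) (by omega) hj) g1 g2 g3
    have ih' := ih (by omega)
    have e : ((((v (j + 1)).1 + V (v (j + 1)).2) - ((v i0).1 + V (v i0).2) : ℤ) : ℝ)
        = ((((v j).1 + V (v j).2) - ((v i0).1 + V (v i0).2) : ℤ) : ℝ)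
          + ((((v (j + 1)).1 + V (v (j + 1)).2) - ((v j).1 + V (v j).2) : ℤ) : ℝ) := by
      push_cast; ring
    rw [e]
    have h3 := abs_add_le ((((v j).1 + V (v j).2) - ((v i0).1 + V (v i0).2) : ℤ) : ℝ)
      ((((v (j + 1)).1 + V (v (j + 1)).2) - ((v j).1 + V (v j).2) : ℤ) : ℝ)
    have h4 := mul_le_mul_of_nonneg_left h3 hb
    rw [mul_add] at h4
    linarith

lemma tilt_cross_loc {t : Edge → ℝ} (ht : ∀ e, 0 ≤ t e) {a b : ℝ} (ha : 0 ≤ a) (hab : a ≤ b)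
    {lo hi : ℤ → ℤ} {D : ℕ} {m : ℤ} {L : ℕ} (hL : 1 ≤ L) (hD : ∀ x, hi x - lo x ≤ D)
    (hstep : ∀ x, hi (x + 1) ≤ hi x + 1 ∧ hi x ≤ hi (x + 1) + 1)
    (hmono : (∀ x, hi x ≤ hi (x + 1)) ∨ (∀ x, hi (x + 1) ≤ hi x))
    (hbig : a * (3 * D + 2 + L) < b * L) (hB : TBarrier t a b lo hi m L)
    (v : ℕ → ℤ × ℤ) (hv : IsRay t v) (i0 j0 : ℕ) (hlt : i0 < j0)
    (hin : ∀ i, i0 ≤ i → i ≤ j0 → InS lo hi (v i))
    (hends : ((v i0).1 = m ∧ (v j0).1 = m + L) ∨ ((v i0).1 = m + L ∧ (v j0).1 = m))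
    (hint : ∀ k, i0 < k → k < j0 → m < (v k).1 ∧ (v k).1 < m + L) : False := by
  obtain ⟨-, hadj, hgeo⟩ := hv
  have hb : 0 ≤ b := ha.trans hab
  obtain ⟨V, G, hG0, hV, hV0, hV1, hGD⟩ := exists_potential (lo := lo) (hi := hi) m L hD hmono
  have hgood : ∀ k, i0 ≤ k → k < j0 → (m ≤ (v k).1 ∧ (v k).1 ≤ m + L) ∧
      (m ≤ (v (k + 1)).1 ∧ (v (k + 1)).1 ≤ m + L) ∧
      ((v k).1 = (v (k + 1)).1 → m < (v k).1 ∧ (v k).1 < m + L) := by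
    intro k hk1 hk2
    have hA : (m ≤ (v k).1 ∧ (v k).1 ≤ m + L) ∧ (k ≠ i0 → m < (v k).1 ∧ (v k).1 < m + L) := by
      by_cases hk0 : k = i0
      · subst hk0
        refine ⟨?_, fun h => absurd rfl h⟩
        rcases hends with ⟨h1, -⟩ | ⟨h1, -⟩ <;> omega
      · have := hint k (by omega) hk2
        exact ⟨⟨by omega, by omega⟩, fun _ => this⟩
    have hB' : (m ≤ (v (k + 1)).1 ∧ (v (k + 1)).1 ≤ m + L) ∧
        (k + 1 ≠ j0 → m < (v (k + 1)).1 ∧ (v (k + 1)).1 < m + L) := by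
      by_cases hk0 : k + 1 = j0
      · rw [hk0]
        refine ⟨?_, fun h => absurd rfl h⟩
        rcases hends with ⟨-, h1⟩ | ⟨-, h1⟩ <;> omega
      · have := hint (k + 1) (by omega) (by omega)
        exact ⟨⟨by omega, by omega⟩, fun _ => this⟩
    refine ⟨hA.1, hB'.1, fun heq => ?_⟩
    by_cases hk0 : k = i0
    · by_cases hk1' : k + 1 = j0
      · subst hk0
        rw [hk1'] at heq
        rcases hends with ⟨h1, h2⟩ | ⟨h1, h2⟩ <;> omega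
      · have h5 := hB'.2 hk1'
        subst hk0
        rcases hends with ⟨h1, h2⟩ | ⟨h1, h2⟩ <;> omega
    · exact hA.2 hk0
  have hlow := pot_seg_loc hb hB V hV v hadj i0 j0 hin hgood j0 hlt.le le_rfl
  rw [hgeo i0 j0 hlt] at hlow
  have hi0 := hin i0 le_rfl hlt.le
  have hj0 := hin j0 hlt.le le_rfl
  unfold InS at hi0 hj0
  have hGD' : ((|hi (m + L) - hi m| : ℤ) : ℝ) ≤ (G : ℝ) + D := by exact_mod_cast hGD
  have hG0' : (0 : ℝ) ≤ (G : ℝ) := by exact_mod_cast hG0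
  have hGab : a * (G : ℝ) ≤ b * (G : ℝ) := mul_le_mul_of_nonneg_right hab hG0'
  rcases hends with ⟨hx0, hx1⟩ | ⟨hx0, hx1⟩
  · rw [hx0] at hi0
    rw [hx1] at hj0
    have hv0 := hV0 _ hi0.1 hi0.2
    have hv1 := hV1 _ hj0.1 hj0.2
    have e : ((v j0).1 + V (v j0).2) - ((v i0).1 + V (v i0).2) = (L : ℤ) + G := by
      rw [hx0, hx1, hv0, hv1]; ring
    rw [e] at hlow
    have habs : |(((L : ℤ) + G : ℤ) : ℝ)| = (L : ℝ) + G := by
      rw [abs_of_nonneg (by exact_mod_cast (by omega : (0 : ℤ) ≤ (L : ℤ) + G))]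
      push_cast
      ring
    rw [habs] at hlow
    have hup := tdetour ht ha hD hstep hmono hB (v i0).2 (v j0).2 hi0 hj0
    have e0 : v i0 = (m, (v i0).2) := by rw [← hx0]
    have e1 : v j0 = (m + L, (v j0).2) := by rw [← hx1]
    rw [← e0, ← e1] at hup
    nlinarith
  · rw [hx0] at hi0
    rw [hx1] at hj0
    have hv0 := hV1 _ hi0.1 hi0.2
    have hv1 := hV0 _ hj0.1 hj0.2
    have e : ((v j0).1 + V (v j0).2) - ((v i0).1 + V (v i0).2) = -((L : ℤ) + G) := by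
      rw [hx0, hx1, hv0, hv1]; ring
    rw [e] at hlow
    have habs : |((-((L : ℤ) + G) : ℤ) : ℝ)| = (L : ℝ) + G := by
      rw [Int.cast_neg, abs_neg,
        abs_of_nonneg (by exact_mod_cast (by omega : (0 : ℤ) ≤ (L : ℤ) + G))]
      push_cast
      ring
    rw [habs] at hlow
    have hup := tdetour ht ha hD hstep hmono hB (v j0).2 (v i0).2 hj0 hi0
    have e0 : v i0 = (m + L, (v i0).2) := by rw [← hx0]
    have e1 : v j0 = (m, (v j0).2) := by rw [← hx1]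
    rw [← e0, ← e1, passage_symm] at hup
    nlinarith

/-- Lower integer graph of the strip `|y - s x - c| ≤ n`. -/
noncomputable def sLo (s c : ℝ) (n : ℕ) (x : ℤ) : ℤ := ⌈s * x + c - n⌉

/-- Upper integer graph of the strip `|y - s x - c| ≤ n`. -/
noncomputable def sHi (s c : ℝ) (n : ℕ) (x : ℤ) : ℤ := ⌊s * x + c + n⌋

lemma s_hD (s c : ℝ) (n : ℕ) (x : ℤ) : sHi s c n x - sLo s c n x ≤ ((2 * n : ℕ) : ℤ) := by
  unfold sHi sLo
  rw [Int.floor_add_natCast, Int.ceil_sub_natCast]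
  have h := Int.floor_le_ceil (s * (x : ℝ) + c)
  push_cast
  omega

lemma s_hstep {s : ℝ} (hs : |s| ≤ 1) (c : ℝ) (n : ℕ) (x : ℤ) :
    sHi s c n (x + 1) ≤ sHi s c n x + 1 ∧ sHi s c n x ≤ sHi s c n (x + 1) + 1 := by
  rw [abs_le] at hs
  unfold sHi
  constructor
  · rw [← Int.floor_add_one]
    apply Int.floor_le_floor
    push_cast
    nlinarith
  · rw [← Int.floor_add_one]
    apply Int.floor_le_floor
    push_cast
    nlinarith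

lemma s_hmono (s c : ℝ) (n : ℕ) :
    (∀ x, sHi s c n x ≤ sHi s c n (x + 1)) ∨ (∀ x, sHi s c n (x + 1) ≤ sHi s c n x) := by
  rcases le_total 0 s with h | h
  · left
    intro x
    unfold sHi
    apply Int.floor_le_floor
    push_cast
    nlinarith
  · right
    intro x
    unfold sHi
    apply Int.floor_le_floor
    push_cast
    nlinarith

lemma s_inS {s c : ℝ} {n : ℕ} {z : ℤ × ℤ} (h : |(z.2 : ℝ) - s * z.1 - c| ≤ n) :
    InS (sLo s c n) (sHi s c n) z := by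
  rw [abs_le] at h
  unfold InS sLo sHi
  exact ⟨Int.ceil_le.mpr (by linarith), Int.le_floor.mpr (by linarith)⟩

/-- Approximation of a strip by a strip with mesh parameters, valid on the columns
`|x| ≤ Q - 1`. -/
lemma mesh_approx {s c : ℝ} {n : ℕ} {Q : ℕ} (hQ : 1 ≤ Q) {z : ℤ × ℤ}
    (hx : |z.1| ≤ (Q : ℤ) - 1) (h : |(z.2 : ℝ) - s * z.1 - c| ≤ n) :
    |(z.2 : ℝ) - ((⌊s * Q⌋ : ℤ) : ℝ) / Q * z.1 - ((⌊c * Q⌋ : ℤ) : ℝ) / Q| ≤ ((n + 1 : ℕ) : ℝ) := by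
  have hQ' : (0 : ℝ) < Q := by exact_mod_cast hQ
  have h1 : 0 ≤ s - ((⌊s * Q⌋ : ℤ) : ℝ) / Q ∧ s - ((⌊s * Q⌋ : ℤ) : ℝ) / Q ≤ 1 / Q := by
    have f1 := Int.floor_le (s * Q)
    have f2 := Int.lt_floor_add_one (s * Q)
    constructor
    · rw [sub_nonneg, div_le_iff₀ hQ']
      exact f1
    · rw [sub_le_iff_le_add, ← add_div, le_div_iff₀ hQ']
      linarith
  have h2 : 0 ≤ c - ((⌊c * Q⌋ : ℤ) : ℝ) / Q ∧ c - ((⌊c * Q⌋ : ℤ) : ℝ) / Q ≤ 1 / Q := by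
    have f1 := Int.floor_le (c * Q)
    have f2 := Int.lt_floor_add_one (c * Q)
    constructor
    · rw [sub_nonneg, div_le_iff₀ hQ']
      exact f1
    · rw [sub_le_iff_le_add, ← add_div, le_div_iff₀ hQ']
      linarith
  have hx' : |(z.1 : ℝ)| ≤ (Q : ℝ) - 1 := by
    have : ((|z.1| : ℤ) : ℝ) ≤ ((Q : ℤ) : ℝ) - 1 := by exact_mod_cast hx
    simpa using this
  have h3 : |(s - ((⌊s * Q⌋ : ℤ) : ℝ) / Q) * (z.1 : ℝ)| ≤ 1 / Q * ((Q : ℝ) - 1) := by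
    rw [abs_mul, abs_of_nonneg h1.1]
    exact mul_le_mul h1.2 hx' (abs_nonneg _) (by positivity)
  have h4 : (1 : ℝ) / Q * ((Q : ℝ) - 1) + 1 / Q = 1 := by
    field_simp
    ring
  have e : (z.2 : ℝ) - ((⌊s * Q⌋ : ℤ) : ℝ) / Q * z.1 - ((⌊c * Q⌋ : ℤ) : ℝ) / Q
      = ((z.2 : ℝ) - s * z.1 - c) + (s - ((⌊s * Q⌋ : ℤ) : ℝ) / Q) * (z.1 : ℝ)
        + (c - ((⌊c * Q⌋ : ℤ) : ℝ) / Q) := by ring
  rw [e]
  have t1 := abs_add_le (((z.2 : ℝ) - s * z.1 - c) + (s - ((⌊s * Q⌋ : ℤ) : ℝ) / Q) * (z.1 : ℝ))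
    (c - ((⌊c * Q⌋ : ℤ) : ℝ) / Q)
  have t2 := abs_add_le ((z.2 : ℝ) - s * z.1 - c) ((s - ((⌊s * Q⌋ : ℤ) : ℝ) / Q) * (z.1 : ℝ))
  have t3 : |c - ((⌊c * Q⌋ : ℤ) : ℝ) / Q| ≤ 1 / Q := by
    rw [abs_of_nonneg h2.1]; exact h2.2
  push_cast
  linarith

end Vale.Agent.Lib.P158
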