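import Vale.Agent.Lib.P158.Uni1

/-!
# A union bound over a mesh of strips
-/

namespace Vale.Agent.Lib.P158

open MeasureTheory ProbabilityTheory Filter Topology

variable {Ω : Type*} [MeasurableSpace Ω] {P : Measure Ω} [IsProbabilityMeasure P]

/-- Among `n` blocks of independent variables, indexed by pairwise disjoint finite sets, each
good with probability at least `p`, the probability that none is good is at most
`(1 - p) ^ n`. -/
lemma block_fail_le {ι : Type*} (t : ι → Ω → ℝ) (hmeas : ∀ e, Measurable (t e))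
    (hindep : iIndepFun t P) (I : ι → Set ℝ) (hI : ∀ e, MeasurableSet (I e))
    (F : ℕ → Finset ι) (hdisj : ∀ i j, i ≠ j → Disjoint (F i) (F j)) (p : ENNReal)
    (hB : ∀ k, p ≤ P (⋂ e ∈ F k, (t e) ⁻¹' (I e))) (n : ℕ) :
    P (⋂ k ∈ Finset.range n, (⋂ e ∈ F k, (t e) ⁻¹' (I e))ᶜ) ≤ (1 - p) ^ n := by
  classical
  have hBmeas : ∀ k, MeasurableSet (⋂ e ∈ F k, (t e) ⁻¹' (I e)) := fun k =>
    Finset.measurableSet_biInter _ (fun e _ => hmeas e (hI e))
  induction n with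
  | zero => simp
  | succ n ih =>
    have hST : Disjoint ((Finset.range n).biUnion F) (F n) := by
      rw [Finset.disjoint_biUnion_left]
      intro k hk
      exact hdisj k n (by rw [Finset.mem_range] at hk; omega)
    have hind := hindep.indepFun_finset _ _ hST hmeas
    rw [IndepFun_iff_Indep, Indep_iff] at hind
    have hm1 : MeasurableSet[MeasurableSpace.comap
        (fun ω (i : ((Finset.range n).biUnion F : Finset ι)) => t i ω) inferInstance]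
        (⋂ k ∈ Finset.range n, (⋂ e ∈ F k, (t e) ⁻¹' (I e))ᶜ) := by
      apply Finset.measurableSet_biInter
      intro k hk
      apply MeasurableSet.compl
      exact block_measurable t I hI _ _ (Finset.subset_biUnion_of_mem F hk)
    have hm2 : MeasurableSet[MeasurableSpace.comap
        (fun ω (i : (F n : Finset ι)) => t i ω) inferInstance]
        (⋂ e ∈ F n, (t e) ⁻¹' (I e))ᶜ := by
      apply MeasurableSet.compl
      exact block_measurable t I hI _ _ (Finset.Subset.refl _)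
    have hsplit : (⋂ k ∈ Finset.range (n + 1), (⋂ e ∈ F k, (t e) ⁻¹' (I e))ᶜ)
        = (⋂ k ∈ Finset.range n, (⋂ e ∈ F k, (t e) ⁻¹' (I e))ᶜ)
          ∩ (⋂ e ∈ F n, (t e) ⁻¹' (I e))ᶜ := by
      rw [Finset.range_add_one, Finset.set_biInter_insert, Set.inter_comm]
    rw [hsplit, hind _ _ hm1 hm2, pow_succ]
    refine mul_le_mul' ih ?_
    rw [prob_compl_eq_one_sub (hBmeas n)]
    exact tsub_le_tsub_left (hB n) 1

/-- The probability that none of the first `W` windows carries a barrier. -/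
lemma tfail_le (t : Edge → Ω → ℝ) (hmeas : ∀ e, Measurable (t e))
    (hindep : iIndepFun t P) (G : Measure ℝ) (hlaw : ∀ e, P.map (t e) = G) (a b : ℝ)
    (lo hi : ℤ → ℤ) (D L : ℕ) (hD : ∀ x, hi x - lo x ≤ D)
    (hstep : ∀ x, hi (x + 1) ≤ hi x + 1 ∧ hi x ≤ hi (x + 1) + 1) (pos : ℕ → ℤ)
    (hsep : ∀ i j, i ≠ j → pos i + L < pos j ∨ pos j + L < pos i) (W : ℕ) :
    P {ω | ∀ k, k < W → ¬ TBarrier (fun e => t e ω) a b lo hi (pos k) L}
      ≤ (1 - min (G (Set.Ici b)) (G (Set.Iic a)) ^ ((L + 1) * (2 * L + D + 3) * 2)) ^ W := by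
  have hprob : IsProbabilityMeasure G := by
    rw [← hlaw ((0, 0), false)]
    exact Measure.isProbabilityMeasure_map (hmeas _).aemeasurable
  have hc1 : min (G (Set.Ici b)) (G (Set.Iic a)) ≤ 1 := (min_le_left _ _).trans prob_le_one
  have hfac : ∀ e, min (G (Set.Ici b)) (G (Set.Iic a))
      ≤ P ((t e) ⁻¹' (treq a b lo hi (fun x => ∃ k : ℕ, x = pos k ∨ x = pos k + L) e)) := by
    intro e
    rw [← Measure.map_apply (hmeas e) (treq_measurable a b lo hi _ e), hlaw e]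
    by_cases hsl : slowCond lo hi (fun x => ∃ k : ℕ, x = pos k ∨ x = pos k + L) e
    · rw [treq_of_slow hsl]; exact min_le_left _ _
    · rw [treq_of_not_slow hsl]; exact min_le_right _ _
  have hblock : ∀ k, min (G (Set.Ici b)) (G (Set.Iic a)) ^ ((L + 1) * (2 * L + D + 3) * 2)
      ≤ P (⋂ e ∈ tblock hi D (pos k) L,
        (t e) ⁻¹' (treq a b lo hi (fun x => ∃ k : ℕ, x = pos k ∨ x = pos k + L) e)) := by
    intro k
    rw [hindep.meas_biInter (fun e _ => ⟨_, treq_measurable a b lo hi _ e, rfl⟩)]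
    calc min (G (Set.Ici b)) (G (Set.Iic a)) ^ ((L + 1) * (2 * L + D + 3) * 2)
        ≤ min (G (Set.Ici b)) (G (Set.Iic a)) ^ (tblock hi D (pos k) L).card :=
          pow_le_pow_of_le_one bot_le hc1 (tblock_card _ _ _ _)
      _ ≤ _ := Finset.pow_card_le_prod _ _ _ (fun e _ => hfac e)
  refine (measure_mono ?_).trans (block_fail_le t hmeas hindep
    (treq a b lo hi (fun x => ∃ k : ℕ, x = pos k ∨ x = pos k + L))
    (treq_measurable a b lo hi _) (fun k => tblock hi D (pos k) L)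
    (fun i j hij => tblock_disjoint hi D (hsep i j hij)) _ hblock W)
  intro ω hω
  simp only [Set.mem_iInter, Set.mem_compl_iff, Finset.mem_range, Set.mem_preimage]
  intro k hk hcon
  refine hω k hk (tbarrier_of_block hD hstep ⟨k, Or.inl rfl⟩ ⟨k, Or.inr rfl⟩ ?_ hcon)
  rintro x hx1 hx2 ⟨k', hk'⟩
  by_cases hkk : k = k'
  · subst hkk
    omega
  · have h3 := hsep k k' hkk
    omega

/-- The scale of the mesh at stage `W`. -/
def Qf (N L W : ℕ) : ℕ := N + (W + 1) * (L + 1) + 1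

lemma Qf_pos (N L W : ℕ) : 1 ≤ Qf N L W := by unfold Qf; omega

lemma Qf_le (N L W : ℕ) (hW : 1 ≤ W) : Qf N L W ≤ (N + 2 * L + 3) * W := by
  unfold Qf
  nlinarith

/-- Almost surely, at some stage every strip of the mesh carries a barrier in one of the
first `W` windows. -/
lemma ae_good (t : Edge → Ω → ℝ) (hmeas : ∀ e, Measurable (t e))
    (hindep : iIndepFun t P) (G : Measure ℝ) (hlaw : ∀ e, P.map (t e) = G) (a b : ℝ)
    (hGa : G (Set.Iic a) ≠ 0) (hGb : G (Set.Ici b) ≠ 0) (n K N L : ℕ) (pos : ℕ → ℤ)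
    (hsep : ∀ i j, i ≠ j → pos i + L < pos j ∨ pos j + L < pos i) :
    ∀ᵐ ω ∂P, ∃ W : ℕ, ∀ p q : ℤ, |p| ≤ (Qf N L W : ℤ) →
      |q| ≤ (((K + 1) * Qf N L W : ℕ) : ℤ) →
      ∃ k, k < W ∧ TBarrier (fun e => t e ω) a b
        (sLo ((p : ℝ) / (Qf N L W : ℝ)) ((q : ℝ) / (Qf N L W : ℝ)) (n + 1))
        (sHi ((p : ℝ) / (Qf N L W : ℝ)) ((q : ℝ) / (Qf N L W : ℝ)) (n + 1)) (pos k) L := by
  have hprob : IsProbabilityMeasure G := by
    rw [← hlaw ((0, 0), false)]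
    exact Measure.isProbabilityMeasure_map (hmeas _).aemeasurable
  have hc0 : min (G (Set.Ici b)) (G (Set.Iic a)) ≠ 0 := by
    rcases min_choice (G (Set.Ici b)) (G (Set.Iic a)) with h | h
    · rw [h]; exact hGb
    · rw [h]; exact hGa
  obtain ⟨p0, hp0def⟩ : ∃ p0 : ENNReal, p0 = min (G (Set.Ici b)) (G (Set.Iic a))
      ^ ((L + 1) * (2 * L + 2 * (n + 1) + 3) * 2) := ⟨_, rfl⟩
  have hp0 : p0 ≠ 0 := by rw [hp0def]; exact pow_ne_zero _ hc0
  have hlt1 : 1 - p0 < 1 := ENNReal.sub_lt_self ENNReal.one_ne_top one_ne_zero hp0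
  have hne : 1 - p0 ≠ ⊤ := ne_top_of_lt hlt1
  have hr0 : 0 ≤ (1 - p0).toReal := ENNReal.toReal_nonneg
  have hr1 : (1 - p0).toReal < 1 := by
    have h := (ENNReal.toReal_lt_toReal hne ENNReal.one_ne_top).mpr hlt1
    simpa using h
  have hfail : ∀ (W : ℕ) (p q : ℤ), |p| ≤ (Qf N L W : ℤ) →
      P {ω | ∀ k, k < W → ¬ TBarrier (fun e => t e ω) a b
        (sLo ((p : ℝ) / (Qf N L W : ℝ)) ((q : ℝ) / (Qf N L W : ℝ)) (n + 1))
        (sHi ((p : ℝ) / (Qf N L W : ℝ)) ((q : ℝ) / (Qf N L W : ℝ)) (n + 1)) (pos k) L}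
      ≤ (1 - p0) ^ W := by
    intro W p q hp
    have hQ : (0 : ℝ) < (Qf N L W : ℝ) := by exact_mod_cast Qf_pos N L W
    have hs : |(p : ℝ) / (Qf N L W : ℝ)| ≤ 1 := by
      rw [abs_div, abs_of_pos hQ, div_le_one hQ]
      have : ((|p| : ℤ) : ℝ) ≤ ((Qf N L W : ℤ) : ℝ) := by exact_mod_cast hp
      simpa using this
    have h := tfail_le t hmeas hindep G hlaw a b
      (sLo ((p : ℝ) / (Qf N L W : ℝ)) ((q : ℝ) / (Qf N L W : ℝ)) (n + 1))
      (sHi ((p : ℝ) / (Qf N L W : ℝ)) ((q : ℝ) / (Qf N L W : ℝ)) (n + 1))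
      (2 * (n + 1)) L (s_hD _ _ _) (s_hstep hs _ _) pos hsep W
    rw [hp0def]
    exact h
  have hbad : ∀ W : ℕ, 1 ≤ W →
      P {ω | ∃ p q : ℤ, |p| ≤ (Qf N L W : ℤ) ∧ |q| ≤ (((K + 1) * Qf N L W : ℕ) : ℤ) ∧
        ∀ k, k < W → ¬ TBarrier (fun e => t e ω) a b
          (sLo ((p : ℝ) / (Qf N L W : ℝ)) ((q : ℝ) / (Qf N L W : ℝ)) (n + 1))
          (sHi ((p : ℝ) / (Qf N L W : ℝ)) ((q : ℝ) / (Qf N L W : ℝ)) (n + 1)) (pos k) L}
      ≤ ENNReal.ofReal ((9 * ((K : ℝ) + 1) * ((N : ℝ) + 2 * L + 3) ^ 2)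
          * ((W : ℝ) ^ 2 * (1 - p0).toReal ^ W)) := by
    intro W hW
    have hsub : {ω | ∃ p q : ℤ, |p| ≤ (Qf N L W : ℤ) ∧ |q| ≤ (((K + 1) * Qf N L W : ℕ) : ℤ) ∧
        ∀ k, k < W → ¬ TBarrier (fun e => t e ω) a b
          (sLo ((p : ℝ) / (Qf N L W : ℝ)) ((q : ℝ) / (Qf N L W : ℝ)) (n + 1))
          (sHi ((p : ℝ) / (Qf N L W : ℝ)) ((q : ℝ) / (Qf N L W : ℝ)) (n + 1)) (pos k) L}
        ⊆ ⋃ pq ∈ (Finset.Icc (-(Qf N L W : ℤ)) (Qf N L W : ℤ) ×ˢ
            Finset.Icc (-(((K + 1) * Qf N L W : ℕ) : ℤ)) (((K + 1) * Qf N L W : ℕ) : ℤ)),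
          {ω | ∀ k, k < W → ¬ TBarrier (fun e => t e ω) a b
            (sLo ((pq.1 : ℝ) / (Qf N L W : ℝ)) ((pq.2 : ℝ) / (Qf N L W : ℝ)) (n + 1))
            (sHi ((pq.1 : ℝ) / (Qf N L W : ℝ)) ((pq.2 : ℝ) / (Qf N L W : ℝ)) (n + 1))
            (pos k) L} := by
      rintro ω ⟨p, q, hp, hq, hpq⟩
      rw [abs_le] at hp hq
      simp only [Set.mem_iUnion]
      refine ⟨(p, q), ?_, hpq⟩
      simp only [Finset.mem_product, Finset.mem_Icc]
      exact ⟨hp, hq⟩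
    have hcardN : (Finset.Icc (-(Qf N L W : ℤ)) (Qf N L W : ℤ) ×ˢ
        Finset.Icc (-(((K + 1) * Qf N L W : ℕ) : ℤ)) (((K + 1) * Qf N L W : ℕ) : ℤ)).card
        ≤ 9 * (K + 1) * ((N + 2 * L + 3) * W) ^ 2 := by
      rw [Finset.card_product, Int.card_Icc, Int.card_Icc]
      have e1 : ((Qf N L W : ℤ) + 1 - -(Qf N L W : ℤ)).toNat = 2 * Qf N L W + 1 := by omega
      have e2 : ((((K + 1) * Qf N L W : ℕ) : ℤ) + 1 - -(((K + 1) * Qf N L W : ℕ) : ℤ)).toNat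
          = 2 * ((K + 1) * Qf N L W) + 1 := by omega
      rw [e1, e2]
      have hQ1 := Qf_pos N L W
      have hQ2 := Qf_le N L W hW
      have h1 : 2 * Qf N L W + 1 ≤ 3 * Qf N L W := by omega
      have h2 : 2 * ((K + 1) * Qf N L W) + 1 ≤ 3 * ((K + 1) * Qf N L W) := by
        have : 1 ≤ (K + 1) * Qf N L W := Nat.one_le_iff_ne_zero.mpr (by positivity)
        omega
      calc (2 * Qf N L W + 1) * (2 * ((K + 1) * Qf N L W) + 1)
          ≤ (3 * Qf N L W) * (3 * ((K + 1) * Qf N L W)) := Nat.mul_le_mul h1 h2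
        _ = 9 * (K + 1) * (Qf N L W) ^ 2 := by ring
        _ ≤ 9 * (K + 1) * ((N + 2 * L + 3) * W) ^ 2 :=
          Nat.mul_le_mul_left _ (Nat.pow_le_pow_left hQ2 2)
    have hcardR : ((Finset.Icc (-(Qf N L W : ℤ)) (Qf N L W : ℤ) ×ˢ
        Finset.Icc (-(((K + 1) * Qf N L W : ℕ) : ℤ)) (((K + 1) * Qf N L W : ℕ) : ℤ)).card : ℝ)
        ≤ (9 * ((K : ℝ) + 1) * ((N : ℝ) + 2 * L + 3) ^ 2) * (W : ℝ) ^ 2 := by
      have h := (Nat.cast_le (α := ℝ)).mpr hcardN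
      push_cast at h
      calc _ ≤ _ := h
        _ = _ := by ring
    calc P _ ≤ P _ := measure_mono hsub
      _ ≤ ∑ pq ∈ (Finset.Icc (-(Qf N L W : ℤ)) (Qf N L W : ℤ) ×ˢ
            Finset.Icc (-(((K + 1) * Qf N L W : ℕ) : ℤ)) (((K + 1) * Qf N L W : ℕ) : ℤ)),
          P {ω | ∀ k, k < W → ¬ TBarrier (fun e => t e ω) a b
            (sLo ((pq.1 : ℝ) / (Qf N L W : ℝ)) ((pq.2 : ℝ) / (Qf N L W : ℝ)) (n + 1))
            (sHi ((pq.1 : ℝ) / (Qf N L W : ℝ)) ((pq.2 : ℝ) / (Qf N L W : ℝ)) (n + 1))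
            (pos k) L} := measure_biUnion_finset_le _ _
      _ ≤ ∑ _pq ∈ (Finset.Icc (-(Qf N L W : ℤ)) (Qf N L W : ℤ) ×ˢ
            Finset.Icc (-(((K + 1) * Qf N L W : ℕ) : ℤ)) (((K + 1) * Qf N L W : ℕ) : ℤ)),
          (1 - p0) ^ W := by
        apply Finset.sum_le_sum
        intro pq hpq
        simp only [Finset.mem_product, Finset.mem_Icc] at hpq
        exact hfail W pq.1 pq.2 (abs_le.mpr hpq.1)
      _ = ((Finset.Icc (-(Qf N L W : ℤ)) (Qf N L W : ℤ) ×ˢ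
            Finset.Icc (-(((K + 1) * Qf N L W : ℕ) : ℤ)) (((K + 1) * Qf N L W : ℕ) : ℤ)).card
              : ENNReal) * (1 - p0) ^ W := by
        rw [Finset.sum_const, nsmul_eq_mul]
      _ = ENNReal.ofReal (((Finset.Icc (-(Qf N L W : ℤ)) (Qf N L W : ℤ) ×ˢ
            Finset.Icc (-(((K + 1) * Qf N L W : ℕ) : ℤ)) (((K + 1) * Qf N L W : ℕ) : ℤ)).card
              : ℝ) * (1 - p0).toReal ^ W) := by
        rw [ENNReal.ofReal_mul (Nat.cast_nonneg _), ENNReal.ofReal_natCast,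
          ENNReal.ofReal_pow hr0, ENNReal.ofReal_toReal hne]
      _ ≤ _ := by
        apply ENNReal.ofReal_le_ofReal
        rw [← mul_assoc]
        exact mul_le_mul_of_nonneg_right hcardR (pow_nonneg hr0 W)
  have hlim : Tendsto (fun W : ℕ => ENNReal.ofReal ((9 * ((K : ℝ) + 1) * ((N : ℝ) + 2 * L + 3) ^ 2)
      * ((W : ℝ) ^ 2 * (1 - p0).toReal ^ W))) atTop (𝓝 0) := by
    have h1 := tendsto_pow_const_mul_const_pow_of_abs_lt_one 2
      (abs_lt.mpr ⟨by linarith, hr1⟩)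
    have h2 := h1.const_mul (9 * ((K : ℝ) + 1) * ((N : ℝ) + 2 * L + 3) ^ 2)
    rw [mul_zero] at h2
    have h3 := ENNReal.tendsto_ofReal h2
    rw [ENNReal.ofReal_zero] at h3
    exact h3
  rw [ae_iff]
  refine le_antisymm (ge_of_tendsto hlim (eventually_atTop.mpr ⟨1, fun W hW => ?_⟩)) bot_le
  refine (measure_mono ?_).trans (hbad W hW)
  intro ω hω
  simp only [Set.mem_ofPred_eq, not_exists] at hω
  have h5 := hω W
  push Not at h5
  obtain ⟨p, q, hp, hq, hpq⟩ := h5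
  exact ⟨p, q, hp, hq, fun k hk => hpq k hk⟩

end Vale.Agent.Lib.P158
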