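import Vale.Agent.Lib.P158.Uni2

/-!
# All strips of slope at most one at once
-/

namespace Vale.Agent.Lib.P158

open MeasureTheory ProbabilityTheory

lemma floor_mesh_p {s : ℝ} (hs : |s| ≤ 1) (Q : ℕ) : |⌊s * (Q : ℝ)⌋| ≤ (Q : ℤ) := by
  rw [abs_le] at hs
  rw [abs_le]
  have hQ : (0 : ℝ) ≤ (Q : ℝ) := Nat.cast_nonneg Q
  constructor
  · apply Int.le_floor.mpr
    push_cast
    nlinarith [mul_nonneg (by linarith : (0 : ℝ) ≤ s + 1) hQ]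
  · have h1 := Int.floor_le (s * (Q : ℝ))
    have h2 : ((⌊s * (Q : ℝ)⌋ : ℤ) : ℝ) ≤ ((Q : ℤ) : ℝ) := by
      push_cast
      nlinarith [mul_nonneg (by linarith : (0 : ℝ) ≤ 1 - s) hQ]
    exact_mod_cast h2

lemma floor_mesh_q {c : ℝ} {K : ℕ} (hc : |c| ≤ K) (Q : ℕ) :
    |⌊c * (Q : ℝ)⌋| ≤ (((K + 1) * Q : ℕ) : ℤ) := by
  rw [abs_le] at hc
  rw [abs_le]
  have hQ : (0 : ℝ) ≤ (Q : ℝ) := Nat.cast_nonneg Q
  constructor
  · apply Int.le_floor.mpr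
    push_cast
    nlinarith [mul_nonneg (by linarith : (0 : ℝ) ≤ c + K) hQ]
  · have h1 := Int.floor_le (c * (Q : ℝ))
    have h2 : ((⌊c * (Q : ℝ)⌋ : ℤ) : ℝ) ≤ ((((K + 1) * Q : ℕ) : ℤ) : ℝ) := by
      push_cast
      nlinarith [mul_nonneg (by linarith : (0 : ℝ) ≤ (K : ℝ) - c) hQ]
    exact_mod_cast h2

lemma mesh_slope_le {p : ℤ} {Q : ℕ} (hQ : 1 ≤ Q) (hp : |p| ≤ (Q : ℤ)) :
    |(p : ℝ) / (Q : ℝ)| ≤ 1 := by
  have hQ' : (0 : ℝ) < (Q : ℝ) := by exact_mod_cast hQ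
  rw [abs_div, abs_of_pos hQ', div_le_one hQ']
  have : ((|p| : ℤ) : ℝ) ≤ ((Q : ℤ) : ℝ) := by exact_mod_cast hp
  simpa using this

/-- If at some stage every strip of the mesh carries a barrier in one of the first windows
to the right and to the left of every starting column, then no geodesic ray stays in a strip
`|y - s x - c| ≤ n` with `|s| ≤ 1` and `|c| ≤ K`. -/
lemma no_ray_of_good {t : Edge → ℝ} (ht : ∀ e, 0 ≤ t e) {a b : ℝ} (ha : 0 ≤ a) (hab : a ≤ b)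
    {n K L : ℕ} (hL : 1 ≤ L)
    (hbig : a * (3 * ((2 * (n + 1) : ℕ) : ℝ) + 2 + (L : ℝ)) < b * (L : ℝ))
    (hR : ∀ N : ℕ, ∃ W : ℕ, ∀ p q : ℤ, |p| ≤ (Qf N L W : ℤ) →
      |q| ≤ (((K + 1) * Qf N L W : ℕ) : ℤ) →
      ∃ k, k < W ∧ TBarrier t a b
        (sLo ((p : ℝ) / (Qf N L W : ℝ)) ((q : ℝ) / (Qf N L W : ℝ)) (n + 1))
        (sHi ((p : ℝ) / (Qf N L W : ℝ)) ((q : ℝ) / (Qf N L W : ℝ)) (n + 1))
        ((N : ℤ) + (k : ℤ) * ((L : ℤ) + 1)) L)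
    (hLf : ∀ N : ℕ, ∃ W : ℕ, ∀ p q : ℤ, |p| ≤ (Qf N L W : ℤ) →
      |q| ≤ (((K + 1) * Qf N L W : ℕ) : ℤ) →
      ∃ k, k < W ∧ TBarrier t a b
        (sLo ((p : ℝ) / (Qf N L W : ℝ)) ((q : ℝ) / (Qf N L W : ℝ)) (n + 1))
        (sHi ((p : ℝ) / (Qf N L W : ℝ)) ((q : ℝ) / (Qf N L W : ℝ)) (n + 1))
        (-(N : ℤ) - (L : ℤ) - (k : ℤ) * ((L : ℤ) + 1)) L)
    {s c : ℝ} (hs : |s| ≤ 1) (hc : |c| ≤ K) (v : ℕ → ℤ × ℤ) (hv : IsRay t v)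
    (hin : ∀ i, |((v i).2 : ℝ) - s * ((v i).1 : ℝ) - c| ≤ n) : False := by
  obtain ⟨WR, hWR⟩ := hR (v 0).1.natAbs
  obtain ⟨WL, hWL⟩ := hLf (v 0).1.natAbs
  have hA1 : (v 0).1 ≤ ((v 0).1.natAbs : ℤ) := Int.le_natAbs
  have hA2 : -((v 0).1.natAbs : ℤ) ≤ (v 0).1 := by
    have h9 := @Int.le_natAbs (-(v 0).1)
    rw [Int.natAbs_neg] at h9
    omega
  generalize (v 0).1.natAbs = N at hWR hWL hA1 hA2
  have hup : ∀ k, (v (k + 1)).1 ≤ (v k).1 + 1 := fun k => (adj_col (hv.2.1 k)).1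
  have hdn : ∀ k, (v k).1 ≤ (v (k + 1)).1 + 1 := fun k => (adj_col (hv.2.1 k)).2
  have hLnn : (0 : ℤ) ≤ (L : ℤ) := Int.natCast_nonneg _
  have hNnn : (0 : ℤ) ≤ (N : ℤ) := Int.natCast_nonneg _
  obtain ⟨j, hj⟩ := texists_far hv.1 (fun i => s_inS (hin i))
    (-(N : ℤ) - (WL : ℤ) * ((L : ℤ) + 1)) ((N : ℤ) + (WR : ℤ) * ((L : ℤ) + 1))
  rcases hj with hj | hj
  · obtain ⟨k, hk, hB⟩ := hWL ⌊s * (Qf N L WL : ℝ)⌋ ⌊c * (Qf N L WL : ℝ)⌋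
      (floor_mesh_p hs _) (floor_mesh_q hc _)
    have hk1 : ((k : ℤ) + 1) * ((L : ℤ) + 1) ≤ (WL : ℤ) * ((L : ℤ) + 1) := by
      have h5 : (k : ℤ) + 1 ≤ (WL : ℤ) := by exact_mod_cast hk
      exact mul_le_mul_of_nonneg_right h5 (by linarith)
    have hk0 : (0 : ℤ) ≤ (k : ℤ) * ((L : ℤ) + 1) :=
      mul_nonneg (Int.natCast_nonneg _) (by linarith)
    have hQ : (Qf N L WL : ℤ) = (N : ℤ) + ((WL : ℤ) + 1) * ((L : ℤ) + 1) + 1 := by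
      unfold Qf
      push_cast
      ring
    obtain ⟨m, hm⟩ : ∃ m : ℤ, m = -(N : ℤ) - (L : ℤ) - (k : ℤ) * ((L : ℤ) + 1) := ⟨_, rfl⟩
    rw [← hm] at hB
    have hm1 : m + (L : ℤ) ≤ -(N : ℤ) := by rw [hm]; linarith
    have hm2 : -(Qf N L WL : ℤ) + 1 ≤ m := by rw [hm, hQ]; linarith
    have hm3 : -(N : ℤ) - (WL : ℤ) * ((L : ℤ) + 1) ≤ m := by rw [hm]; linarith
    have hj' : (v j).1 ≤ m := by linarith
    obtain ⟨i0, j0, hlt, h1, h2, h3⟩ := visits_left (fun k => (v k).1) hdn m L hL 0 j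
      (by linarith) (by simpa using hj')
    have h1' : (v i0).1 = m + (L : ℤ) := h1
    have h2' : (v j0).1 = m := h2
    have hcol : ∀ i, i0 ≤ i → i ≤ j0 → m ≤ (v i).1 ∧ (v i).1 ≤ m + (L : ℤ) := by
      intro i hi1 hi2
      rcases Nat.eq_or_lt_of_le hi1 with e | e
      · rw [← e, h1']
        constructor <;> linarith
      · rcases Nat.eq_or_lt_of_le hi2 with e' | e'
        · rw [e', h2']
          constructor <;> linarith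
        · have h4 : m < (v i).1 ∧ (v i).1 < m + (L : ℤ) := h3 i e e'
          exact ⟨h4.1.le, h4.2.le⟩
    have hin' : ∀ i, i0 ≤ i → i ≤ j0 →
        InS (sLo (((⌊s * (Qf N L WL : ℝ)⌋ : ℤ) : ℝ) / (Qf N L WL : ℝ))
            (((⌊c * (Qf N L WL : ℝ)⌋ : ℤ) : ℝ) / (Qf N L WL : ℝ)) (n + 1))
          (sHi (((⌊s * (Qf N L WL : ℝ)⌋ : ℤ) : ℝ) / (Qf N L WL : ℝ))
            (((⌊c * (Qf N L WL : ℝ)⌋ : ℤ) : ℝ) / (Qf N L WL : ℝ)) (n + 1)) (v i) := by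
      intro i hi1 hi2
      obtain ⟨c1, c2⟩ := hcol i hi1 hi2
      apply s_inS
      refine mesh_approx (Qf_pos N L WL) ?_ (hin i)
      rw [abs_le]
      constructor <;> linarith
    exact tilt_cross_loc ht ha hab hL (s_hD _ _ _)
      (s_hstep (mesh_slope_le (Qf_pos N L WL) (floor_mesh_p hs _)) _ _) (s_hmono _ _ _) hbig hB
      v hv i0 j0 hlt hin' (Or.inr ⟨h1, h2⟩) h3
  · obtain ⟨k, hk, hB⟩ := hWR ⌊s * (Qf N L WR : ℝ)⌋ ⌊c * (Qf N L WR : ℝ)⌋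
      (floor_mesh_p hs _) (floor_mesh_q hc _)
    have hk1 : ((k : ℤ) + 1) * ((L : ℤ) + 1) ≤ (WR : ℤ) * ((L : ℤ) + 1) := by
      have h5 : (k : ℤ) + 1 ≤ (WR : ℤ) := by exact_mod_cast hk
      exact mul_le_mul_of_nonneg_right h5 (by linarith)
    have hk0 : (0 : ℤ) ≤ (k : ℤ) * ((L : ℤ) + 1) :=
      mul_nonneg (Int.natCast_nonneg _) (by linarith)
    have hQ : (Qf N L WR : ℤ) = (N : ℤ) + ((WR : ℤ) + 1) * ((L : ℤ) + 1) + 1 := by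
      unfold Qf
      push_cast
      ring
    obtain ⟨m, hm⟩ : ∃ m : ℤ, m = (N : ℤ) + (k : ℤ) * ((L : ℤ) + 1) := ⟨_, rfl⟩
    rw [← hm] at hB
    have hm1 : (N : ℤ) ≤ m := by rw [hm]; linarith
    have hm2 : m + (L : ℤ) ≤ (Qf N L WR : ℤ) - 1 := by rw [hm, hQ]; linarith
    have hm3 : m + (L : ℤ) ≤ (N : ℤ) + (WR : ℤ) * ((L : ℤ) + 1) := by rw [hm]; linarith
    have hj' : m + (L : ℤ) ≤ (v j).1 := by linarith
    obtain ⟨i0, j0, hlt, h1, h2, h3⟩ := visits_right (fun k => (v k).1) hup m L hL 0 j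
      (by linarith) (by simpa using hj')
    have h1' : (v i0).1 = m := h1
    have h2' : (v j0).1 = m + (L : ℤ) := h2
    have hcol : ∀ i, i0 ≤ i → i ≤ j0 → m ≤ (v i).1 ∧ (v i).1 ≤ m + (L : ℤ) := by
      intro i hi1 hi2
      rcases Nat.eq_or_lt_of_le hi1 with e | e
      · rw [← e, h1']
        constructor <;> linarith
      · rcases Nat.eq_or_lt_of_le hi2 with e' | e'
        · rw [e', h2']
          constructor <;> linarith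
        · have h4 : m < (v i).1 ∧ (v i).1 < m + (L : ℤ) := h3 i e e'
          exact ⟨h4.1.le, h4.2.le⟩
    have hin' : ∀ i, i0 ≤ i → i ≤ j0 →
        InS (sLo (((⌊s * (Qf N L WR : ℝ)⌋ : ℤ) : ℝ) / (Qf N L WR : ℝ))
            (((⌊c * (Qf N L WR : ℝ)⌋ : ℤ) : ℝ) / (Qf N L WR : ℝ)) (n + 1))
          (sHi (((⌊s * (Qf N L WR : ℝ)⌋ : ℤ) : ℝ) / (Qf N L WR : ℝ))
            (((⌊c * (Qf N L WR : ℝ)⌋ : ℤ) : ℝ) / (Qf N L WR : ℝ)) (n + 1)) (v i) := by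
      intro i hi1 hi2
      obtain ⟨c1, c2⟩ := hcol i hi1 hi2
      apply s_inS
      refine mesh_approx (Qf_pos N L WR) ?_ (hin i)
      rw [abs_le]
      constructor <;> linarith
    exact tilt_cross_loc ht ha hab hL (s_hD _ _ _)
      (s_hstep (mesh_slope_le (Qf_pos N L WR) (floor_mesh_p hs _)) _ _) (s_hmono _ _ _) hbig hB
      v hv i0 j0 hlt hin' (Or.inl ⟨h1, h2⟩) h3

variable {Ω : Type*} [MeasurableSpace Ω] {P : Measure Ω} [IsProbabilityMeasure P]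

/-- Almost surely no geodesic ray stays in any strip `|y - s x - c| ≤ n` with `|s| ≤ 1`:
one null set for all real `s`, `c` and all `n`. -/
theorem ae_no_ray_strips (t : Edge → Ω → ℝ) (hmeas : ∀ e, Measurable (t e))
    (hindep : iIndepFun t P) (G : Measure ℝ) (hlaw : ∀ e, P.map (t e) = G)
    (hsupp : G (Set.Iio 0) = 0) (a b : ℝ) (hab : a < b) (hGa : G (Set.Iic a) ≠ 0)
    (hGb : G (Set.Ici b) ≠ 0) :
    ∀ᵐ ω ∂P, ∀ v : ℕ → ℤ × ℤ, IsRay (fun e => t e ω) v →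
      ¬ ∃ (s c : ℝ) (n : ℕ), |s| ≤ 1 ∧
        ∀ i, |((v i).2 : ℝ) - s * ((v i).1 : ℝ) - c| ≤ n := by
  have ha0 : 0 ≤ a := by
    by_contra hneg
    push Not at hneg
    exact hGa (measure_mono_null (fun x hx => lt_of_le_of_lt hx hneg) hsupp)
  have hLex : ∀ n : ℕ, ∃ L : ℕ, 1 ≤ L ∧
      a * (3 * ((2 * (n + 1) : ℕ) : ℝ) + 2 + (L : ℝ)) < b * (L : ℝ) := by
    intro n
    obtain ⟨L, hL⟩ := exists_nat_gt (a * (3 * ((2 * (n + 1) : ℕ) : ℝ) + 2) / (b - a))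
    refine ⟨L + 1, by omega, ?_⟩
    have hba : 0 < b - a := sub_pos.mpr hab
    rw [div_lt_iff₀ hba] at hL
    push_cast
    push_cast at hL
    nlinarith
  choose Lf hLf1 hLf2 using hLex
  have hnn : ∀ᵐ ω ∂P, ∀ e, 0 ≤ t e ω := by
    rw [ae_all_iff]
    intro e
    rw [ae_iff]
    have h5 : {ω | ¬ 0 ≤ t e ω} = (t e) ⁻¹' (Set.Iio 0) := by
      ext ω; simp
    rw [h5, ← Measure.map_apply (hmeas e) measurableSet_Iio, hlaw e]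
    exact hsupp
  have hR : ∀ᵐ ω ∂P, ∀ n K N : ℕ, ∃ W : ℕ, ∀ p q : ℤ, |p| ≤ (Qf N (Lf n) W : ℤ) →
      |q| ≤ (((K + 1) * Qf N (Lf n) W : ℕ) : ℤ) →
      ∃ k, k < W ∧ TBarrier (fun e => t e ω) a b
        (sLo ((p : ℝ) / (Qf N (Lf n) W : ℝ)) ((q : ℝ) / (Qf N (Lf n) W : ℝ)) (n + 1))
        (sHi ((p : ℝ) / (Qf N (Lf n) W : ℝ)) ((q : ℝ) / (Qf N (Lf n) W : ℝ)) (n + 1))
        ((N : ℤ) + (k : ℤ) * (((Lf n : ℕ) : ℤ) + 1)) (Lf n) := by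
    rw [ae_all_iff]
    intro n
    rw [ae_all_iff]
    intro K
    rw [ae_all_iff]
    intro N
    have hLnn : (0 : ℤ) ≤ ((Lf n : ℕ) : ℤ) := Int.natCast_nonneg _
    exact ae_good t hmeas hindep G hlaw a b hGa hGb n K N (Lf n)
      (fun k => (N : ℤ) + (k : ℤ) * (((Lf n : ℕ) : ℤ) + 1)) (by
        intro i j hij
        rcases Nat.lt_or_gt_of_ne hij with h | h
        · left; have := sep_aux (Lf n) hLnn i j h; linarith
        · right; have := sep_aux (Lf n) hLnn j i h; linarith)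
  have hL : ∀ᵐ ω ∂P, ∀ n K N : ℕ, ∃ W : ℕ, ∀ p q : ℤ, |p| ≤ (Qf N (Lf n) W : ℤ) →
      |q| ≤ (((K + 1) * Qf N (Lf n) W : ℕ) : ℤ) →
      ∃ k, k < W ∧ TBarrier (fun e => t e ω) a b
        (sLo ((p : ℝ) / (Qf N (Lf n) W : ℝ)) ((q : ℝ) / (Qf N (Lf n) W : ℝ)) (n + 1))
        (sHi ((p : ℝ) / (Qf N (Lf n) W : ℝ)) ((q : ℝ) / (Qf N (Lf n) W : ℝ)) (n + 1))
        (-(N : ℤ) - ((Lf n : ℕ) : ℤ) - (k : ℤ) * (((Lf n : ℕ) : ℤ) + 1)) (Lf n) := by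
    rw [ae_all_iff]
    intro n
    rw [ae_all_iff]
    intro K
    rw [ae_all_iff]
    intro N
    have hLnn : (0 : ℤ) ≤ ((Lf n : ℕ) : ℤ) := Int.natCast_nonneg _
    exact ae_good t hmeas hindep G hlaw a b hGa hGb n K N (Lf n)
      (fun k => -(N : ℤ) - ((Lf n : ℕ) : ℤ) - (k : ℤ) * (((Lf n : ℕ) : ℤ) + 1)) (by
        intro i j hij
        rcases Nat.lt_or_gt_of_ne hij with h | h
        · right; have := sep_aux (Lf n) hLnn i j h; linarith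
        · left; have := sep_aux (Lf n) hLnn j i h; linarith)
  filter_upwards [hnn, hR, hL] with ω h1 h2 h3 v hv hex
  obtain ⟨s, c, n, hs, hin⟩ := hex
  obtain ⟨K, hK⟩ := exists_nat_ge |c|
  exact no_ray_of_good h1 ha0 hab.le (hLf1 n) (hLf2 n) (fun N => h2 n K N)
    (fun N => h3 n K N) hs hK v hv hin

end Vale.Agent.Lib.P158
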